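import Vale.Agent.P286.H103.Frame

/-!
# The left invariant forms of a linear algebraic group
-/

namespace Vale.Agent.P286.H103

open Matrix Vale.Agent.P286.Gen Vale.Agent.P286.H295 Vale.Agent.P286.H710

noncomputable section

set_option linter.unusedSectionVars false

section LieAlg

variable {k A : Type} [CommRing k] [CommRing A] [Algebra k A]

theorem lie_zero (v : Derivation k A A) : Om.lie v (0 : Om k A) = 0 := by
  have h := Om.lie_add v (0 : Om k A) 0
  rw [add_zero] at h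
  exact left_eq_add.1 h

/-- The Lie derivative as an additive map. -/
def lieH (v : Derivation k A A) : Om k A →+ Om k A where
  toFun := Om.lie v
  map_zero' := lie_zero v
  map_add' := Om.lie_add v

theorem lieH_apply (v : Derivation k A A) (x : Om k A) : lieH v x = Om.lie v x := rfl

theorem lie_smul (v : Derivation k A A) (a : A) (x : Om k A) :
    Om.lie v (a • x) = v a • x + a • Om.lie v x := by
  rw [Algebra.smul_def, Om.lie_mul, Om.lie_alg, Algebra.smul_def, Algebra.smul_def]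

theorem lie_sg (v : Derivation k A A) (x : Om k A) : Om.lie v (Om.sg x) = Om.sg (Om.lie v x) := by
  unfold Om.lie
  rw [Om.ct_sg, Om.d_neg, Om.d_sg, neg_neg, Om.d_sg, _root_.map_neg, Om.ct_sg, neg_neg, map_add]

theorem lie_sum (v : Derivation k A A) {ι : Type*} (s : Finset ι) (x : ι → Om k A) :
    Om.lie v (∑ i ∈ s, x i) = ∑ i ∈ s, Om.lie v (x i) := map_sum (lieH v) x s

theorem dd_sum {ι : Type*} (s : Finset ι) (x : ι → A) :
    (Om.dd (∑ i ∈ s, x i) : Om k A) = ∑ i ∈ s, Om.dd (x i) := by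
  unfold Om.dd
  rw [map_sum, map_sum]

theorem dd_const_mul (c : k) (b : A) :
    (Om.dd (algebraMap k A c * b) : Om k A) = algebraMap k A c • Om.dd b := by
  unfold Om.dd
  rw [Derivation.leibniz, Derivation.map_algebraMap, smul_zero, add_zero, map_smul]

theorem om_zero_smul (x : Om k A) : (0 : A) • x = 0 := zero_smul _ _

theorem om_d_sum {ι : Type*} (s : Finset ι) (x : ι → Om k A) :
    Om.d (∑ i ∈ s, x i) = ∑ i ∈ s, Om.d (x i) :=
  map_sum (AddMonoidHom.mk' (Om.d : Om k A → Om k A) Om.d_add) x s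

/-- The entries of `h dg`. -/
def lmc {n : ℕ} (g h : Matrix (Fin n) (Fin n) A) (a b : Fin n) : Om k A :=
  ∑ j, h a j • Om.dd (g j b)

theorem dd_inv {n : ℕ} (g h : Matrix (Fin n) (Fin n) A) (h1 : h * g = 1) (h2 : g * h = 1)
    (a b : Fin n) : (Om.dd (h a b) : Om k A) = - ∑ c, h c b • lmc g h a c := by
  have h3 : ∀ c, ∑ j, g j c • (Om.dd (h a j) : Om k A) = - lmc g h a c := by
    intro c
    have h4 : (Om.dd (∑ j, h a j * g j c) : Om k A) = 0 := by
      rw [← Matrix.mul_apply, h1]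
      unfold Om.dd
      rw [Matrix.one_apply]
      split_ifs
      · rw [Derivation.map_one_eq_zero, map_zero]
      · rw [map_zero, map_zero]
    rw [dd_sum] at h4
    rw [lmc, eq_neg_iff_add_eq_zero, ← h4, ← Finset.sum_add_distrib]
    refine Finset.sum_congr rfl fun j _ => ?_
    unfold Om.dd
    rw [Derivation.leibniz, map_add, map_smul, map_smul, add_comm]
  have h6 : ∑ c, h c b • ∑ j, g j c • (Om.dd (h a j) : Om k A) = Om.dd (h a b) := by
    have h7 : ∀ c ∈ Finset.univ, h c b • ∑ j, g j c • (Om.dd (h a j) : Om k A) =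
        ∑ j, (g j c * h c b) • (Om.dd (h a j) : Om k A) := by
      intro c _
      rw [Finset.smul_sum]
      refine Finset.sum_congr rfl fun j _ => ?_
      rw [smul_smul, mul_comm]
    rw [Finset.sum_congr rfl h7, Finset.sum_comm]
    have h8 : ∀ j ∈ Finset.univ, ∑ c, (g j c * h c b) • (Om.dd (h a j) : Om k A) =
        (1 : Matrix (Fin n) (Fin n) A) j b • (Om.dd (h a j) : Om k A) := by
      intro j _
      rw [← h2, Matrix.mul_apply, Finset.sum_smul]
    rw [Finset.sum_congr rfl h8, Finset.sum_eq_single b]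
    · rw [Matrix.one_apply_eq, one_smul]
    · intro j _ hj
      rw [Matrix.one_apply_ne hj, zero_smul]
    · intro h
      exact absurd (Finset.mem_univ b) h
  rw [← h6, ← Finset.sum_neg_distrib]
  refine Finset.sum_congr rfl fun c _ => ?_
  rw [h3, smul_neg]

/-- The Maurer–Cartan equation `d(h dg) = - (h dg)(h dg)` for `h = g⁻¹`. -/
theorem d_lmc {n : ℕ} (g h : Matrix (Fin n) (Fin n) A) (h1 : h * g = 1) (h2 : g * h = 1)
    (a b : Fin n) : Om.d (lmc g h a b : Om k A) = - ∑ c, lmc g h a c * lmc g h c b := by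
  conv_lhs => rw [lmc, om_d_sum]
  have h9 : ∀ j ∈ Finset.univ, Om.d (h a j • (Om.dd (g j b) : Om k A)) =
      - ∑ c, lmc g h a c * (h c j • Om.dd (g j b)) := by
    intro j _
    rw [Om.d_smul, Om.d_dd, smul_zero, zero_add, dd_inv g h h1 h2, neg_mul, Finset.sum_mul]
    congr 1
    refine Finset.sum_congr rfl fun c _ => ?_
    rw [smul_mul_assoc, mul_smul_comm]
  rw [Finset.sum_congr rfl h9, Finset.sum_neg_distrib, Finset.sum_comm]
  congr 1
  refine Finset.sum_congr rfl fun c _ => ?_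
  rw [← Finset.mul_sum]
  rfl

end LieAlg

variable {N : ℕ} {Γ : Gps N}

theorem cst_smul (c : ℂ) (x : Om ℂ (Of Γ)) : algebraMap ℂ (Of Γ) c • x = c • x :=
  algebraMap_smul (Of Γ) c x

/-- The entries of `g⁻¹ dg` in the algebra of forms. -/
def mco (Γ : Gps N) (a b : Fin N) : Om ℂ (Of Γ) := ExteriorAlgebra.ι (Of Γ) (mc Γ a b)

/-- The left invariant one-forms in the algebra of forms. -/
def tho (Γ : Gps N) (i : Fin (dm Γ)) : Om ℂ (Of Γ) := ExteriorAlgebra.ι (Of Γ) (th Γ i)

theorem mco_eq_sum (a b : Fin N) :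
    mco Γ a b = ∑ k, (um Γ).adjugate a k • (Om.dd (um Γ k b) : Om ℂ (Of Γ)) := by
  rw [mco, mc, map_sum]
  exact Finset.sum_congr rfl fun k _ => map_smul _ _ _

theorem tho_eq_sum (i : Fin (dm Γ)) :
    tho Γ i = ∑ p : Fin N × Fin N, algebraMap ℂ (Of Γ) (ccf Γ i p) • mco Γ p.1 p.2 := by
  rw [tho, th, map_sum]
  exact Finset.sum_congr rfl fun k _ => map_smul _ _ _

theorem mco_eq_tho (hP : (vanI Γ).IsPrime) (a b : Fin N) : mco Γ a b =
    ∑ i, algebraMap ℂ (Of Γ) ((bs Γ i : Matrix (Fin N) (Fin N) ℂ) a b) • tho Γ i := by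
  rw [mco, mc_eq hP, map_sum]
  exact Finset.sum_congr rfl fun k _ => map_smul _ _ _

theorem lie_mco_aux {A M ι : Type} [CommRing A] [AddCommGroup M] [Module A M] [Fintype ι]
    (u : ι → A) (w : ι → ι → A) (x : ι → M) :
    ∑ k, ((- ∑ c, u c * w c k) • x k + u k • ∑ c, w k c • x c) = 0 := by
  rw [Finset.sum_add_distrib]
  have h1 : ∀ k ∈ Finset.univ, u k • ∑ c, w k c • x c = ∑ c, (u k * w k c) • x c := by
    intro k _
    rw [Finset.smul_sum]
    exact Finset.sum_congr rfl fun c _ => smul_smul _ _ _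
  rw [Finset.sum_congr rfl h1, Finset.sum_comm, ← Finset.sum_add_distrib]
  refine Finset.sum_eq_zero fun c _ => ?_
  rw [← Finset.sum_smul, neg_smul, neg_add_cancel]

/-- The right invariant fields preserve the left invariant forms. -/
theorem lie_mco {X : Mt N ℂ} (hX : IsLi Γ X) (a b : Fin N) : Om.lie (rX X hX) (mco Γ a b) = 0 := by
  have h1 : ∀ k, rX X hX ((um Γ).adjugate a k) =
      - ∑ c, (um Γ).adjugate a c * cm (Of Γ) X c k := by
    intro k
    have h := congrFun (congrFun (adj_map_der (rX X hX)) a) k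
    rw [um_map_rX, ← Matrix.mul_assoc, Matrix.mul_assoc _ (um Γ), um_mul_adj, Matrix.mul_one] at h
    exact h
  have h2 : ∀ k, (Om.dd (rX X hX (um Γ k b)) : Om ℂ (Of Γ)) =
      ∑ c, cm (Of Γ) X k c • Om.dd (um Γ c b) := by
    intro k
    have h : rX X hX (um Γ k b) = ∑ c, cm (Of Γ) X k c * um Γ c b :=
      congrFun (congrFun (um_map_rX hX) k) b
    rw [h, dd_sum]
    exact Finset.sum_congr rfl fun c _ => dd_const_mul _ _
  rw [mco_eq_sum, lie_sum]
  refine Eq.trans (Finset.sum_congr rfl fun k _ => ?_)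
    (lie_mco_aux (fun c => (um Γ).adjugate a c) (fun c k => cm (Of Γ) X c k)
      (fun k => (Om.dd (um Γ k b) : Om ℂ (Of Γ))))
  refine (lie_smul _ _ _).trans ?_
  rw [h1, Om.lie_dd, h2]

theorem lie_tho {X : Mt N ℂ} (hX : IsLi Γ X) (i : Fin (dm Γ)) : Om.lie (rX X hX) (tho Γ i) = 0 := by
  rw [tho_eq_sum, lie_sum]
  refine Finset.sum_eq_zero fun p _ => ?_
  refine (lie_smul _ _ _).trans ?_
  rw [lie_mco, smul_zero, add_zero, Derivation.map_algebraMap]
  exact om_zero_smul _

/-- The left invariant forms. -/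
def LI (Γ : Gps N) : Subalgebra ℂ (Om ℂ (Of Γ)) where
  carrier := {x | ∀ i, Om.lie (rX (bs Γ i : Matrix (Fin N) (Fin N) ℂ) (isLi_bs i)) x = 0}
  mul_mem' {x y} hx hy i := by rw [Om.lie_mul, hx i, hy i, zero_mul, mul_zero, add_zero]
  add_mem' {x y} hx hy i := by rw [Om.lie_add, hx i, hy i, add_zero]
  algebraMap_mem' c i := by
    rw [IsScalarTower.algebraMap_apply ℂ (Of Γ) (Om ℂ (Of Γ)), Om.lie_alg,
      Derivation.map_algebraMap, map_zero]

theorem mem_LI {x : Om ℂ (Of Γ)} : x ∈ LI Γ ↔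
    ∀ i, Om.lie (rX (bs Γ i : Matrix (Fin N) (Fin N) ℂ) (isLi_bs i)) x = 0 := Iff.rfl

theorem tho_mem (i : Fin (dm Γ)) : tho Γ i ∈ LI Γ := fun _ => lie_tho _ _

theorem mco_mem (a b : Fin N) : mco Γ a b ∈ LI Γ := fun _ => lie_mco _ _ _

theorem d_mem_LI {x : Om ℂ (Of Γ)} (hx : x ∈ LI Γ) : Om.d x ∈ LI Γ := fun i => by
  rw [Om.lie_d, hx i, Om.d_zero]

theorem sg_mem_LI {x : Om ℂ (Of Γ)} (hx : x ∈ LI Γ) : Om.sg x ∈ LI Γ := fun i => by
  rw [lie_sg, hx i, map_zero]

/-- The increasing list of the elements of a set. -/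
def lst {d : ℕ} (s : Finset (Fin d)) : List (Fin d) :=
  List.ofFn fun i => Set.powersetCard.ofFinEmbEquiv.symm (Set.powersetCard.prodEquiv.symm s).2 i

theorem extBasis_eq {d : ℕ} {R M : Type} [CommRing R] [AddCommGroup M] [Module R M]
    (b : Module.Basis (Fin d) R M) (s : Finset (Fin d)) :
    b.ExteriorAlgebra s = ((lst s).map fun i => ExteriorAlgebra.ι R (b i)).prod := by
  rw [ExteriorAlgebra.basis_apply, lst, List.map_ofFn]
  rfl

/-- The basis of the algebra of forms over the functions. -/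
def thE (hP : (vanI Γ).IsPrime) : Module.Basis (Finset (Fin (dm Γ))) (Of Γ) (Om ℂ (Of Γ)) :=
  (thB hP).ExteriorAlgebra

theorem thE_eq (hP : (vanI Γ).IsPrime) (s : Finset (Fin (dm Γ))) :
    thE hP s = ((lst s).map (tho Γ)).prod := by
  rw [thE, extBasis_eq]
  congr 2
  funext i
  rw [thB_apply]
  rfl

theorem thE_mem (hP : (vanI Γ).IsPrime) (s : Finset (Fin (dm Γ))) : thE hP s ∈ LI Γ := by
  rw [thE_eq]
  apply Subalgebra.list_prod_mem
  intro x hx
  rw [List.mem_map] at hx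
  obtain ⟨i, _, rfl⟩ := hx
  exact tho_mem i

theorem lie_thE (hP : (vanI Γ).IsPrime) {X : Mt N ℂ} (hX : IsLi Γ X) (s : Finset (Fin (dm Γ))) :
    Om.lie (rX X hX) (thE hP s) = 0 := by
  rw [thE_eq]
  induction lst s with
  | nil =>
    rw [List.map_nil, List.prod_nil, ← map_one (algebraMap (Of Γ) (Om ℂ (Of Γ))), Om.lie_alg,
      Derivation.map_one_eq_zero, map_zero]
  | cons i l ih =>
    rw [List.map_cons, List.prod_cons, Om.lie_mul, lie_tho, ih, zero_mul, mul_zero, add_zero]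

/-- The right invariant fields act on the coefficients. -/
theorem lie_sum_thE (hP : (vanI Γ).IsPrime) {X : Mt N ℂ} (hX : IsLi Γ X)
    (a : Finset (Fin (dm Γ)) → Of Γ) :
    Om.lie (rX X hX) (∑ s, a s • thE hP s) = ∑ s, rX X hX (a s) • thE hP s := by
  rw [lie_sum]
  refine Finset.sum_congr rfl fun s _ => ?_
  refine (lie_smul _ _ _).trans ?_
  rw [lie_thE, smul_zero, add_zero]

theorem repr_lie (hP : (vanI Γ).IsPrime) {X : Mt N ℂ} (hX : IsLi Γ X) (x : Om ℂ (Of Γ))
    (s : Finset (Fin (dm Γ))) :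
    (thE hP).repr (Om.lie (rX X hX) x) s = rX X hX ((thE hP).repr x s) := by
  have h1 := (thE hP).sum_repr x
  have h2 := congrArg (Om.lie (rX X hX)) h1
  rw [lie_sum_thE] at h2
  rw [← h2, Module.Basis.repr_sum_self]

/-- The left invariant forms are the combinations with constant coefficients. -/
theorem mem_LI_iff (hP : (vanI Γ).IsPrime) {x : Om ℂ (Of Γ)} :
    x ∈ LI Γ ↔ ∀ s, ∃ c : ℂ, (thE hP).repr x s = algebraMap ℂ (Of Γ) c := by
  constructor
  · intro hx s
    apply const_of_rX hP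
    intro i
    rw [← repr_lie, mem_LI.1 hx i, map_zero]
    rfl
  · intro hx i
    apply (thE hP).repr.injective
    rw [map_zero]
    ext s
    obtain ⟨c, hc⟩ := hx s
    rw [repr_lie, hc, Derivation.map_algebraMap]
    rfl

theorem lie_of_mem_LI (hP : (vanI Γ).IsPrime) {x : Om ℂ (Of Γ)} (hx : x ∈ LI Γ) {X : Mt N ℂ}
    (hX : IsLi Γ X) : Om.lie (rX X hX) x = 0 := by
  apply (thE hP).repr.injective
  rw [map_zero]
  ext s
  obtain ⟨c, hc⟩ := (mem_LI_iff hP).1 hx s
  rw [repr_lie, hc, Derivation.map_algebraMap]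
  rfl

/-- The Maurer–Cartan equation. -/
theorem d_mco (a b : Fin N) : Om.d (mco Γ a b) = - ∑ c, mco Γ a c * mco Γ c b := by
  have h : ∀ a b, mco Γ a b = lmc (um Γ) (um Γ).adjugate a b := fun a b => mco_eq_sum a b
  rw [h a b, d_lmc (um Γ) (um Γ).adjugate um_adj_mul um_mul_adj]
  congr 1
  exact Finset.sum_congr rfl fun c _ => by rw [h, h]

/-- The homomorphism from the exterior algebra of the dual of the Lie algebra. -/
def liMap (Γ : Gps N) : ExteriorAlgebra ℂ (Fin (dm Γ) → ℂ) →ₐ[ℂ] Om ℂ (Of Γ) :=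
  ExteriorAlgebra.lift ℂ ⟨Fintype.linearCombination ℂ (tho Γ), fun m => by
    have h : Fintype.linearCombination ℂ (tho Γ) m =
        ExteriorAlgebra.ι (Of Γ) (∑ i, algebraMap ℂ (Of Γ) (m i) • th Γ i) := by
      rw [Fintype.linearCombination_apply, map_sum]
      refine Finset.sum_congr rfl fun i _ => ?_
      rw [map_smul]
      exact (cst_smul _ _).symm
    rw [h, ExteriorAlgebra.ι_sq_zero]⟩

theorem liMap_ι (m : Fin (dm Γ) → ℂ) :
    liMap Γ (ExteriorAlgebra.ι ℂ m) = ∑ i, m i • tho Γ i := by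
  rw [liMap, ExteriorAlgebra.lift_ι_apply, Fintype.linearCombination_apply]

theorem liMap_basis (hP : (vanI Γ).IsPrime) (s : Finset (Fin (dm Γ))) :
    liMap Γ ((Pi.basisFun ℂ (Fin (dm Γ))).ExteriorAlgebra s) = thE hP s := by
  rw [extBasis_eq, map_list_prod, List.map_map, thE_eq]
  congr 2
  funext i
  rw [Function.comp_apply, liMap_ι, Finset.sum_eq_single i]
  · rw [Pi.basisFun_apply, Pi.single_eq_same, one_smul]
  · intro j _ hj
    rw [Pi.basisFun_apply, Pi.single_eq_of_ne hj, zero_smul]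
  · intro h
    exact absurd (Finset.mem_univ i) h

theorem liMap_injective (hP : (vanI Γ).IsPrime) : Function.Injective (liMap Γ) := by
  rw [injective_iff_map_eq_zero]
  intro x hx
  have h1 := ((Pi.basisFun ℂ (Fin (dm Γ))).ExteriorAlgebra).sum_repr x
  apply ((Pi.basisFun ℂ (Fin (dm Γ))).ExteriorAlgebra).repr.injective
  rw [map_zero]
  ext s
  rw [← h1, map_sum] at hx
  have h2 : ∑ s, algebraMap ℂ (Of Γ)
      (((Pi.basisFun ℂ (Fin (dm Γ))).ExteriorAlgebra).repr x s) • thE hP s = 0 := by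
    rw [← hx]
    refine Finset.sum_congr rfl fun s _ => ?_
    rw [map_smul, liMap_basis hP]
    exact cst_smul _ _
  have h3 := Fintype.linearIndependent_iff.1 (thE hP).linearIndependent _ h2 s
  have : IsDomain (Of Γ) := inferInstance
  exact (FaithfulSMul.algebraMap_injective ℂ (Of Γ)) (h3.trans (map_zero _).symm)

theorem liMap_range (hP : (vanI Γ).IsPrime) {x : Om ℂ (Of Γ)} :
    x ∈ LI Γ ↔ ∃ y, liMap Γ y = x := by
  constructor
  · intro hx
    choose c hc using (mem_LI_iff hP).1 hx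
    refine ⟨∑ s, c s • (Pi.basisFun ℂ (Fin (dm Γ))).ExteriorAlgebra s, ?_⟩
    rw [map_sum, ← (thE hP).sum_repr x]
    refine Finset.sum_congr rfl fun s _ => ?_
    rw [map_smul, liMap_basis hP, hc]
    exact (cst_smul _ _).symm
  · rintro ⟨y, rfl⟩
    rw [← ((Pi.basisFun ℂ (Fin (dm Γ))).ExteriorAlgebra).sum_repr y, map_sum]
    refine Subalgebra.sum_mem _ fun s _ => ?_
    rw [map_smul, liMap_basis hP]
    exact Subalgebra.smul_mem _ (thE_mem hP s) _

end

end Vale.Agent.P286.H103
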