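import Vale.Agent.P286.H295.Smo
import Vale.Agent.P286.H710.OmCt

/-!
# The left invariant frame of a linear algebraic group

`rX`, `lX` are the right and left invariant vector fields, `th` is the frame of one-forms given by
the coordinates of `g⁻¹ dg`.
-/

namespace Vale.Agent.P286.H103

open Matrix Vale.Agent.P286.Gen Vale.Agent.P286.H295 Vale.Agent.P286.H710

noncomputable section

set_option linter.unusedSectionVars false

variable {N : ℕ} {Γ : Gps N}

section Der

theorem der_sum {A : Type} [CommRing A] [Algebra ℂ A] {ι : Type*} (s : Finset ι)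
    (v : ι → Derivation ℂ A A) (a : A) : (∑ i ∈ s, v i) a = ∑ i ∈ s, v i a := by
  have h := map_sum (Derivation.coeFnAddMonoidHom (R := ℂ) (A := A) (M := A)) v s
  have h2 := congrFun h a
  rw [Finset.sum_apply] at h2
  exact h2

/-- A derivation is determined by its values on the coordinates. -/
theorem der_ext {v w : Derivation ℂ (Of Γ) (Of Γ)} (h : (um Γ).map v = (um Γ).map w) : v = w := by
  apply Derivation.ext
  intro a
  obtain ⟨P, rfl⟩ := Ideal.Quotient.mk_surjective a
  induction P using MvPolynomial.induction_on with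
  | C c =>
    have h1 : (Ideal.Quotient.mk (vanI Γ) (MvPolynomial.C c) : Of Γ) = algebraMap ℂ (Of Γ) c := rfl
    rw [h1, Derivation.map_algebraMap, Derivation.map_algebraMap]
  | add p q hp hq => rw [map_add, map_add, map_add, hp, hq]
  | mul_X p i hp =>
    have h1 := congrFun (congrFun h i.1) i.2
    rw [Matrix.map_apply, Matrix.map_apply, um_apply] at h1
    rw [map_mul, Derivation.leibniz, Derivation.leibniz, hp]
    congr 2

/-- The point `g + ε y` defines a derivation. -/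
def derOf (y : Mt N (Of Γ)) (h : IsPt Γ (du (um Γ) y)) : Derivation ℂ (Of Γ) (Of Γ) :=
  have h1 : ∀ a, (pth _ h a).fst = a := by
    have e : (TrivSqZeroExt.fstHom ℂ (Of Γ) (Of Γ)).comp (pth _ h) = AlgHom.id ℂ (Of Γ) := by
      apply pth_ext
      ext i j
      change (pth _ h (um Γ i j)).fst = um Γ i j
      have h2 := congrFun (congrFun (um_map_pth (Γ := Γ) _ h) i) j
      rw [Matrix.map_apply] at h2
      rw [h2, du_apply, TrivSqZeroExt.fst_add, TrivSqZeroExt.fst_inl, TrivSqZeroExt.fst_inr,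
        add_zero]
    exact fun a => AlgHom.congr_fun e a
  Derivation.mk'
    { toFun := fun a => (pth _ h a).snd
      map_add' := fun a b => by rw [map_add, TrivSqZeroExt.snd_add]
      map_smul' := fun c a => by rw [map_smul, TrivSqZeroExt.snd_smul, RingHom.id_apply] }
    (fun a b => by
      change (pth _ h (a * b)).snd = _
      rw [map_mul, TrivSqZeroExt.snd_mul, h1, h1, MulOpposite.smul_eq_mul_unop,
        MulOpposite.unop_op]
      change a * _ + _ * b = a * _ + b * _
      rw [mul_comm b]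
      rfl)

theorem um_map_derOf (y : Mt N (Of Γ)) (h : IsPt Γ (du (um Γ) y)) :
    (um Γ).map (derOf y h) = y := by
  ext i j
  change (pth _ h (um Γ i j)).snd = y i j
  have h1 := congrFun (congrFun (um_map_pth (Γ := Γ) _ h) i) j
  rw [Matrix.map_apply] at h1
  rw [h1, du_apply, TrivSqZeroExt.snd_add, TrivSqZeroExt.snd_inl, TrivSqZeroExt.snd_inr, zero_add]

theorem isPt_rX {X : Mt N ℂ} (hX : IsLi Γ X) : IsPt Γ (du (um Γ) (cm (Of Γ) X * um Γ)) := by
  have h : IsPt Γ (du 1 (cm (Of Γ) X) * du (um Γ) 0) :=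
    IsPt.mul (isLi_cm hX) isPt_um.du
  rw [du_mul, Matrix.one_mul, Matrix.one_mul, zero_add] at h
  exact h

theorem isPt_lX {X : Mt N ℂ} (hX : IsLi Γ X) : IsPt Γ (du (um Γ) (um Γ * cm (Of Γ) X)) := by
  have h : IsPt Γ (du (um Γ) 0 * du 1 (cm (Of Γ) X)) :=
    IsPt.mul isPt_um.du (isLi_cm hX)
  rw [du_mul, Matrix.mul_one, Matrix.zero_mul, add_zero] at h
  exact h

/-- The right invariant vector field `g ↦ X g`. -/
def rX (X : Mt N ℂ) (hX : IsLi Γ X) : Derivation ℂ (Of Γ) (Of Γ) := derOf _ (isPt_rX hX)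

/-- The left invariant vector field `g ↦ g X`. -/
def lX (X : Mt N ℂ) (hX : IsLi Γ X) : Derivation ℂ (Of Γ) (Of Γ) := derOf _ (isPt_lX hX)

theorem um_map_rX {X : Mt N ℂ} (hX : IsLi Γ X) : (um Γ).map (rX X hX) = cm (Of Γ) X * um Γ :=
  um_map_derOf _ _

theorem um_map_lX {X : Mt N ℂ} (hX : IsLi Γ X) : (um Γ).map (lX X hX) = um Γ * cm (Of Γ) X :=
  um_map_derOf _ _

theorem um_adj_mul : (um Γ).adjugate * um Γ = 1 := isPt_um.adj_mul

theorem um_mul_adj : um Γ * (um Γ).adjugate = 1 := isPt_um.mul_adj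

theorem map_one_der {A : Type} [CommRing A] [Algebra ℂ A] (v : Derivation ℂ A A) :
    (1 : Mt N A).map v = 0 := by
  ext i j
  rw [Matrix.map_apply, Matrix.one_apply]
  split_ifs
  · exact Derivation.map_one_eq_zero v
  · exact map_zero v

theorem map_mul_der {A : Type} [CommRing A] [Algebra ℂ A] (v : Derivation ℂ A A) (X Y : Mt N A) :
    (X * Y).map v = X.map v * Y + X * Y.map v := by
  ext i j
  rw [Matrix.map_apply, Matrix.mul_apply, Matrix.add_apply, Matrix.mul_apply, Matrix.mul_apply,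
    map_sum, ← Finset.sum_add_distrib]
  refine Finset.sum_congr rfl fun k _ => ?_
  rw [Derivation.leibniz, smul_eq_mul, smul_eq_mul, Matrix.map_apply, Matrix.map_apply]
  ring

theorem adj_map_der (v : Derivation ℂ (Of Γ) (Of Γ)) :
    (um Γ).adjugate.map v = - ((um Γ).adjugate * (um Γ).map v * (um Γ).adjugate) := by
  have h3 := congrArg (fun X : Mt N (Of Γ) => X.map v) (um_adj_mul (Γ := Γ))
  rw [map_mul_der, map_one_der] at h3
  have h5 := congrArg (· * (um Γ).adjugate) h3
  rw [Matrix.add_mul, Matrix.mul_assoc, um_mul_adj, Matrix.mul_one, Matrix.zero_mul] at h5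
  exact eq_neg_of_add_eq_zero_left h5

theorem smul_mul_entry {A : Type} [CommRing A] (c : A) (X Y : Mt N A) (a b : Fin N) :
    ((c • X) * Y) a b = c * (X * Y) a b := by
  rw [Matrix.mul_apply, Matrix.mul_apply, Finset.mul_sum]
  exact Finset.sum_congr rfl fun k _ => mul_assoc _ _ _

theorem mul_smul_entry {A : Type} [CommRing A] (c : A) (X Y : Mt N A) (a b : Fin N) :
    (X * (c • Y)) a b = c * (X * Y) a b := by
  rw [Matrix.mul_apply, Matrix.mul_apply, Finset.mul_sum]
  exact Finset.sum_congr rfl fun k _ => mul_left_comm _ _ _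

theorem sum_rX_um (c : Fin (dm Γ) → Of Γ) :
    (um Γ).map (∑ i, c i • rX (bs Γ i : Matrix (Fin N) (Fin N) ℂ) (isLi_bs i) :
      Derivation ℂ (Of Γ) (Of Γ)) = toG Γ c * um Γ := by
  ext a b
  rw [Matrix.map_apply, der_sum, toG, Finset.sum_mul, Matrix.sum_apply]
  refine Finset.sum_congr rfl fun i _ => ?_
  have h3 : rX (bs Γ i : Matrix (Fin N) (Fin N) ℂ) (isLi_bs i) (um Γ a b) =
    (cm (Of Γ) (bs Γ i : Matrix (Fin N) (Fin N) ℂ) * um Γ) a b :=
    congrFun (congrFun (um_map_rX (isLi_bs (Γ := Γ) i)) a) b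
  rw [smul_mul_entry, ← h3]
  rfl

theorem sum_lX_um (c : Fin (dm Γ) → Of Γ) :
    (um Γ).map (∑ i, c i • lX (bs Γ i : Matrix (Fin N) (Fin N) ℂ) (isLi_bs i) :
      Derivation ℂ (Of Γ) (Of Γ)) = um Γ * toG Γ c := by
  ext a b
  rw [Matrix.map_apply, der_sum, toG, Finset.mul_sum, Matrix.sum_apply]
  refine Finset.sum_congr rfl fun i _ => ?_
  have h3 : lX (bs Γ i : Matrix (Fin N) (Fin N) ℂ) (isLi_bs i) (um Γ a b) =
    (um Γ * cm (Of Γ) (bs Γ i : Matrix (Fin N) (Fin N) ℂ)) a b :=
    congrFun (congrFun (um_map_lX (isLi_bs (Γ := Γ) i)) a) b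
  rw [mul_smul_entry, ← h3]
  rfl

/-- Every vector field is a combination of right invariant ones. -/
theorem der_eq_sum_rX (v : Derivation ℂ (Of Γ) (Of Γ)) :
    v = ∑ i, coG Γ ((um Γ).map v * (um Γ).adjugate) i •
      rX (bs Γ i : Matrix (Fin N) (Fin N) ℂ) (isLi_bs i) := by
  apply der_ext
  rw [sum_rX_um, toG_coG (isPt_um.dlog v), Matrix.mul_assoc, um_adj_mul, Matrix.mul_one]

/-- The left logarithmic derivative. -/
theorem isLi_dlogl (v : Derivation ℂ (Of Γ) (Of Γ)) :
    IsLi Γ ((um Γ).adjugate * (um Γ).map v) := by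
  have h1 := (isPt_um (Γ := Γ)).adjugate.du.mul ((isPt_um (Γ := Γ)).map (derA v))
  rw [map_derA, du_mul, Matrix.zero_mul, add_zero, um_adj_mul] at h1
  exact h1

/-- Every vector field is a combination of left invariant ones. -/
theorem der_eq_sum_lX (v : Derivation ℂ (Of Γ) (Of Γ)) :
    v = ∑ i, coG Γ ((um Γ).adjugate * (um Γ).map v) i •
      lX (bs Γ i : Matrix (Fin N) (Fin N) ℂ) (isLi_bs i) := by
  apply der_ext
  rw [sum_lX_um, toG_coG (isLi_dlogl v), ← Matrix.mul_assoc, um_mul_adj, Matrix.one_mul]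

/-- A function killed by all right invariant vector fields is constant. -/
theorem const_of_rX (hP : (vanI Γ).IsPrime) (f : Of Γ)
    (hf : ∀ i, rX (bs Γ i : Matrix (Fin N) (Fin N) ℂ) (isLi_bs i) f = 0) :
    ∃ c : ℂ, f = algebraMap ℂ (Of Γ) c := by
  apply const_of_der
  intro v
  rw [der_eq_sum_rX v, der_sum]
  refine Finset.sum_eq_zero fun i _ => ?_
  rw [Derivation.coe_smul, Pi.smul_apply, hf, smul_zero]

/-- The logarithmic derivative of the left invariant fields. -/
theorem coG_lX {X : Mt N ℂ} (hX : IsLi Γ X) (i : Fin (dm Γ)) :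
    coG Γ ((um Γ).adjugate * (um Γ).map (lX X hX)) i = coG Γ (cm (Of Γ) X) i := by
  rw [um_map_lX, ← Matrix.mul_assoc, um_adj_mul, Matrix.one_mul]

end Der

section Kd

/-- The entries of `g⁻¹ dg`. -/
def mc (Γ : Gps N) (a b : Fin N) : Ω[Of Γ⁄ℂ] :=
  ∑ k, (um Γ).adjugate a k • KaehlerDifferential.D ℂ (Of Γ) (um Γ k b)

/-- The coordinates of `g⁻¹ dg`. -/
def th (Γ : Gps N) (i : Fin (dm Γ)) : Ω[Of Γ⁄ℂ] :=
  ∑ p : Fin N × Fin N, algebraMap ℂ (Of Γ) (ccf Γ i p) • mc Γ p.1 p.2

theorem lift_mc (v : Derivation ℂ (Of Γ) (Of Γ)) (a b : Fin N) :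
    v.liftKaehlerDifferential (mc Γ a b) = ((um Γ).adjugate * (um Γ).map v) a b := by
  rw [mc, map_sum, Matrix.mul_apply]
  refine Finset.sum_congr rfl fun k _ => ?_
  rw [map_smul, Derivation.liftKaehlerDifferential_comp_D, smul_eq_mul, Matrix.map_apply]

theorem lift_th (v : Derivation ℂ (Of Γ) (Of Γ)) (i : Fin (dm Γ)) :
    v.liftKaehlerDifferential (th Γ i) = coG Γ ((um Γ).adjugate * (um Γ).map v) i := by
  rw [th, map_sum, coG]
  refine Finset.sum_congr rfl fun p _ => ?_
  rw [map_smul, lift_mc, smul_eq_mul, mul_comm]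

theorem lift_th_lX (i j : Fin (dm Γ)) :
    (lX (bs Γ j : Matrix (Fin N) (Fin N) ℂ) (isLi_bs j)).liftKaehlerDifferential (th Γ i) =
      if j = i then 1 else 0 := by
  rw [lift_th, coG_lX, coG_cm]

/-- Forms are detected by vector fields. -/
theorem kd_ext (hP : (vanI Γ).IsPrime) {x y : Ω[Of Γ⁄ℂ]}
    (h : ∀ v : Derivation ℂ (Of Γ) (Of Γ),
      v.liftKaehlerDifferential x = v.liftKaehlerDifferential y) : x = y := by
  have : Algebra.Smooth ℂ (Of Γ) := smooth_Of hP
  rw [← sub_eq_zero, ← Module.forall_dual_apply_eq_zero_iff (Of Γ)]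
  intro φ
  have h1 := h (φ.compDer (KaehlerDifferential.D ℂ (Of Γ)))
  have h2 : (φ.compDer (KaehlerDifferential.D ℂ (Of Γ))).liftKaehlerDifferential = φ := by
    apply Derivation.liftKaehlerDifferential_unique
    rw [Derivation.liftKaehlerDifferential_comp]
  rw [h2] at h1
  rw [map_sub, h1, sub_self]

/-- The differential of a function. -/
theorem D_eq (hP : (vanI Γ).IsPrime) (f : Of Γ) : KaehlerDifferential.D ℂ (Of Γ) f =
    ∑ i, lX (bs Γ i : Matrix (Fin N) (Fin N) ℂ) (isLi_bs i) f • th Γ i := by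
  apply kd_ext hP
  intro v
  rw [Derivation.liftKaehlerDifferential_comp_D, map_sum]
  conv_lhs => rw [der_eq_sum_lX v]
  rw [der_sum]
  refine Finset.sum_congr rfl fun i _ => ?_
  rw [map_smul, lift_th, smul_eq_mul, mul_comm]
  rfl

/-- The matrix `g⁻¹ dg` in terms of its coordinates. -/
theorem mc_eq (hP : (vanI Γ).IsPrime) (a b : Fin N) : mc Γ a b =
    ∑ i, algebraMap ℂ (Of Γ) ((bs Γ i : Matrix (Fin N) (Fin N) ℂ) a b) • th Γ i := by
  apply kd_ext hP
  intro v
  rw [lift_mc, map_sum]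
  have h1 := congrFun (congrFun (toG_coG (isLi_dlogl v)) a) b
  rw [← h1, toG_apply]
  refine Finset.sum_congr rfl fun i _ => ?_
  rw [map_smul, lift_th, smul_eq_mul, mul_comm]

theorem th_li (Γ : Gps N) : LinearIndependent (Of Γ) (th Γ) := by
  rw [Fintype.linearIndependent_iff]
  intro a h j
  have h2 := congrArg
    (lX (bs Γ j : Matrix (Fin N) (Fin N) ℂ) (isLi_bs j)).liftKaehlerDifferential h
  rw [map_sum, map_zero] at h2
  rw [← h2, Finset.sum_eq_single j]
  · rw [map_smul, lift_th_lX, if_pos rfl, smul_eq_mul, mul_one]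
  · intro i _ hi
    rw [map_smul, lift_th_lX, if_neg (Ne.symm hi), smul_zero]
  · intro h
    exact absurd (Finset.mem_univ j) h

/-- The left invariant one-forms are a basis. -/
def thB (hP : (vanI Γ).IsPrime) : Module.Basis (Fin (dm Γ)) (Of Γ) (Ω[Of Γ⁄ℂ]) :=
  Module.Basis.mk (th_li Γ) (by
    rw [← KaehlerDifferential.span_range_derivation, Submodule.span_le]
    rintro _ ⟨f, rfl⟩
    rw [D_eq hP f]
    exact Submodule.sum_mem _ fun i _ =>
      Submodule.smul_mem _ _ (Submodule.subset_span ⟨i, rfl⟩))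

theorem thB_apply (hP : (vanI Γ).IsPrime) (i : Fin (dm Γ)) : thB hP i = th Γ i := by
  rw [thB, Module.Basis.mk_apply]

end Kd

end

end Vale.Agent.P286.H103
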