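import Vale.Agent.P286.H103.QisPt
import Vale.Agent.P286.H295.Coprod
import Vale.Agent.P286.H847.Gtd
import Vale.Agent.P286.Gen.Main

/-!
# Quasi-isomorphisms of cartesian complexes on `BG` can be tested at the point
-/

namespace Vale.Agent.P286.H103

open CategoryTheory Vale.Agent.P286.Gen Vale.Agent.P286.H295 Vale.Agent.P286.H847 St

noncomputable section

variable {N : ℕ} {Γ : Gps N}

/-- The condition that `u` induces bijections on the cohomology over `X`. -/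
def QisX {T : TSite} {K L : Cx T} (u : K ⟶ L) (X : T.C) : Prop :=
  ∀ i j k : ℤ, i + 1 = j → j + 1 = k →
    St.HIso (K.d X i j) (K.d X j k) (L.d X i j) (L.d X j k) (Cx.hm u X j)

/-- The condition that cartesian complexes which are quasi-isomorphic at the object `X₀` are
quasi-isomorphic. -/
def PtCrit (T : TSite) (X₀ : T.C) : Prop :=
  ∀ (K L : Cx T) (u : K ⟶ L), Cx.Cart K → Cx.Cart L → QisX u X₀ → Cx.qis T u

theorem ptCrit_aux (Γ : Gps N) : PtCrit ((Gen.BG Γ ⊥).toT 0) (BPt Γ) := by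
  classical
  intro K L u hK hL h Y
  let ι : (BPt Γ) ⟶ Y := bm (X := BPt Γ) (Y := Y) (Algebra.ofId ℂ Y.A.R) 1
  have h1 : QisAt ((Br.Ec (Gen.BG Γ ⊥) 0).map u) (BPt Γ) :=
    (qisAt_iff ((Br.Ec (Gen.BG Γ ⊥) 0).map u) (BPt Γ)).2 h
  let b := Module.Basis.ofVectorSpace ℂ Y.A.R
  have hsm : ∀ (c : ℂ) (a : Y.A.R), ((Gen.BG Γ ⊥).res ι).toRingHom c * a = c • a := by
    intro c a
    exact (Algebra.smul_def c a).symm
  have hms : ∀ (c : ℂ) (m : Module.Basis.ofVectorSpaceIndex ℂ Y.A.R →₀ ℂ),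
      b.repr.symm (c • m) = c • b.repr.symm m := fun c m => map_smul b.repr.symm c m
  let E : letI : Module ((Gen.BG Γ ⊥).R (BPt Γ)) ((Gen.BG Γ ⊥).R Y) :=
        Module.compHom ((Gen.BG Γ ⊥).R Y) ((Gen.BG Γ ⊥).res ι).toRingHom
      (Module.Basis.ofVectorSpaceIndex ℂ Y.A.R →₀ (Gen.BG Γ ⊥).R (BPt Γ)) ≃ₗ[(Gen.BG Γ ⊥).R (BPt Γ)]
        (Gen.BG Γ ⊥).R Y :=
    letI : Module ((Gen.BG Γ ⊥).R (BPt Γ)) ((Gen.BG Γ ⊥).R Y) :=
        Module.compHom ((Gen.BG Γ ⊥).R Y) ((Gen.BG Γ ⊥).res ι).toRingHom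
    { toFun := fun m => b.repr.symm m
      invFun := fun a => b.repr a
      left_inv := fun m => b.repr.apply_symm_apply m
      right_inv := fun a => b.repr.symm_apply_apply a
      map_add' := fun m m' => map_add b.repr.symm m m'
      map_smul' := fun c m => (hms c m).trans (hsm c _).symm }
  exact (qisAt_iff ((Br.Ec (Gen.BG Γ ⊥) 0).map u) Y).1
    (QisAt.of_free ((Br.Ec (Gen.BG Γ ⊥) 0).map u) (Br.cart_E hK) (Br.cart_E hL) ι
      (fun k => b.repr.symm (Finsupp.single k 1)) E (fun k => rfl) h1)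

theorem ptCrit_cast {T T' : TSite} (h : T = T') (X₀ : T.C) (hT : PtCrit T X₀) :
    PtCrit T' (cast (congrArg TSite.C h) X₀) := by
  subst h
  exact hT

/-- A morphism of cartesian complexes on `BG` which is a quasi-isomorphism at the point is a
quasi-isomorphism. -/
theorem ptCrit (Γ : Gps N) : PtCrit (BGT Γ) (BPt Γ) :=
  ptCrit_cast (Gen.toT_BG Γ) (BPt Γ) (ptCrit_aux Γ)

end

end Vale.Agent.P286.H103
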