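import Vale.Agent.P286.Gen.FreeK
import Vale.Agent.P286.H527.BrCart

/-!
# Quasi-isomorphisms of cartesian complexes and free extensions
-/

namespace Vale.Agent.P286.H103

open CategoryTheory Vale.Agent.P286.Gen

section Free

variable {T : Site} {s : ℂ} {K L : TCx T s}

/-- The map on sections. -/
def um' (u : K ⟶ L) (j : ℤ) (X : T.C) : K.obj j X →+ L.obj j X :=
  (TDMod.Hom.app (HomologicalComplex.Hom.f u j) X).toAddMonoidHom

theorem um'_smul (u : K ⟶ L) (j : ℤ) (X : T.C) (a : T.R X) (x : K.obj j X) :
    um' u j X (a • x) = a • um' u j X x :=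
  _root_.map_smul (TDMod.Hom.app (HomologicalComplex.Hom.f u j) X) a x

theorem um'_map (u : K ⟶ L) (j : ℤ) {X Y : T.C} (φ : X ⟶ Y) (x : K.obj j X) :
    um' u j Y (K.map φ j x) = L.map φ j (um' u j X x) :=
  TDMod.Hom.nat (HomologicalComplex.Hom.f u j) φ x

theorem um'_d (u : K ⟶ L) (i j : ℤ) (X : T.C) (x : K.obj i X) :
    um' u j X (K.d X i j x) = L.d X i j (um' u i X x) := by
  have h : HomologicalComplex.Hom.f u i ≫ HomologicalComplex.d L i j =
      HomologicalComplex.d K i j ≫ HomologicalComplex.Hom.f u j := HomologicalComplex.Hom.comm u i j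
  have := congrArg (fun f : HomologicalComplex.X K i ⟶ HomologicalComplex.X L j =>
    TDMod.Hom.app f X x) h
  exact this.symm

theorem um'_bd (u : K ⟶ L) {j : ℤ} {X : T.C} {x : K.obj j X} (h : K.Bd X j x) :
    L.Bd X j (um' u j X x) := by
  obtain ⟨y, rfl⟩ := h
  exact ⟨um' u _ X y, (um'_d u _ _ X y).symm⟩

theorem um'_cyc (u : K ⟶ L) {j : ℤ} {X : T.C} {x : K.obj j X} (h : K.Cyc X j x) :
    L.Cyc X j (um' u j X x) := by
  unfold TCx.Cyc at *
  rw [← um'_d, h, map_zero]

/-- The condition that `u` induces bijections on the cohomology over `X`. -/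
def QisAt (u : K ⟶ L) (X : T.C) : Prop := ∀ j : ℤ,
  (∀ x : K.obj j X, K.Cyc X j x → L.Bd X j (um' u j X x) → K.Bd X j x) ∧
  (∀ y : L.obj j X, L.Cyc X j y → ∃ x : K.obj j X, K.Cyc X j x ∧ L.Bd X j (y - um' u j X x))

theorem qisAt_iff (u : K ⟶ L) (X : T.C) : QisAt u X ↔
    ∀ i j k : ℤ, i + 1 = j → j + 1 = k →
      HIso (K.d X i j) (K.d X j k) (L.d X i j) (L.d X j k)
        (TDMod.Hom.app (HomologicalComplex.Hom.f u j) X).toAddMonoidHom := by
  constructor
  · rintro h i j k hi rfl
    obtain rfl : i = j - 1 := by omega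
    exact ⟨fun x hx hy => (h j).1 x hx hy, fun y hy => (h j).2 y hy⟩
  · intro h j
    obtain ⟨h1, h2⟩ := h (j - 1) j (j + 1) (by ring) rfl
    exact ⟨fun x hx hy => h1 x hx hy, fun y hy => h2 y hy⟩

/-- A morphism of cartesian complexes which is a quasi-isomorphism over `X` is a quasi-isomorphism
over `Y`, if there is a morphism `X ⟶ Y` such that the algebra of `Y` is free over that of `X`. -/
theorem QisAt.of_free {κ : Type} [DecidableEq κ] (u : K ⟶ L) (hK : Cartesian K) (hL : Cartesian L)
    {X Y : T.C} (ι : X ⟶ Y) (e : κ → T.R Y)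
    (E : letI : Module (T.R X) (T.R Y) := Module.compHom (T.R Y) (T.res ι).toRingHom
      (κ →₀ T.R X) ≃ₗ[T.R X] T.R Y)
    (hE : ∀ k, E (Finsupp.single k 1) = e k) (h : QisAt u X) : QisAt u Y := by
  classical
  intro j
  obtain ⟨K1, K2⟩ := cart_free hK ι e E hE j
  obtain ⟨L1, L2⟩ := cart_free hL ι e E hE j
  -- the image of a combination
  have hsum : ∀ m : κ →₀ K.obj j X, um' u j Y (m.sum fun k x => e k • K.map ι j x) =
      (m.mapRange (um' u j X) (map_zero _)).sum fun k x => e k • L.map ι j x := by
    intro m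
    rw [Finsupp.sum_mapRange_index (fun k => by rw [map_zero, smul_zero]), Finsupp.sum, map_sum]
    exact Finset.sum_congr rfl fun k _ => by rw [um'_smul, um'_map]
  constructor
  · intro n hn hb
    obtain ⟨m, hm, hbd⟩ := K2 n hn
    have h1 : L.Bd Y j ((m.mapRange (um' u j X) (map_zero _)).sum
        fun k x => e k • L.map ι j x) := by
      have h2 := hb.sub (um'_bd u hbd)
      rw [map_sub, sub_sub_cancel, hsum] at h2
      exact h2
    have h3 := L1 _ (fun k => by
      rw [Finsupp.mapRange_apply]
      exact um'_cyc u (hm k)) h1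
    have h4 : ∀ k, K.Bd X j (m k) := fun k => (h j).1 (m k) (hm k) (by
      have := h3 k
      rwa [Finsupp.mapRange_apply] at this)
    have h5 : K.Bd Y j (m.sum fun k x => e k • K.map ι j x) :=
      TCx.Bd.sum _ fun k _ => ((h4 k).map ι).smul (e k)
    have := hbd.add h5
    rwa [sub_add_cancel] at this
  · intro n hn
    obtain ⟨m, hm, hbd⟩ := L2 n hn
    choose x hx hx' using fun k => (h j).2 (m k) (hm k)
    let x' : κ →₀ K.obj j X := Finsupp.onFinset m.support (fun k => if m k = 0 then 0 else x k)
      (fun k hk => by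
        by_contra h0
        rw [Finsupp.mem_support_iff, not_not] at h0
        exact hk (if_pos h0))
    have hx1 : ∀ k, K.Cyc X j (x' k) := by
      intro k
      simp only [x', Finsupp.onFinset_apply]
      split_ifs
      · exact map_zero _
      · exact hx k
    have hx2 : ∀ k, L.Bd X j (m k - um' u j X (x' k)) := by
      intro k
      simp only [x', Finsupp.onFinset_apply]
      split_ifs with h0
      · rw [h0, map_zero, sub_zero]
        exact TCx.Bd.zero
      · exact hx' k
    refine ⟨x'.sum fun k y => e k • K.map ι j y, ?_, ?_⟩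
    · unfold TCx.Cyc
      rw [Finsupp.sum, map_sum]
      refine Finset.sum_eq_zero fun k _ => ?_
      rw [K.d_smul, K.d_map, hx1 k, map_zero, smul_zero]
    · have h1 : um' u j Y (x'.sum fun k y => e k • K.map ι j y) =
          ∑ k ∈ m.support, e k • L.map ι j (um' u j X (x' k)) := by
        have h2 : (x'.sum fun k y => e k • K.map ι j y) =
            ∑ k ∈ m.support, e k • K.map ι j (x' k) := by
          apply Finsupp.sum_of_support_subset
          · intro k hk
            by_contra h0
            rw [Finsupp.mem_support_iff, not_not] at h0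
            rw [Finsupp.mem_support_iff] at hk
            exact hk (if_pos h0)
          · intro k _
            rw [map_zero, smul_zero]
        rw [h2, map_sum]
        exact Finset.sum_congr rfl fun k _ => by rw [um'_smul, um'_map]
      have h3 : L.Bd Y j ((m.sum fun k x => e k • L.map ι j x) -
          ∑ k ∈ m.support, e k • L.map ι j (um' u j X (x' k))) := by
        rw [Finsupp.sum, ← Finset.sum_sub_distrib]
        refine TCx.Bd.sum _ fun k _ => ?_
        rw [← smul_sub, ← map_sub]
        exact ((hx2 k).map ι).smul (e k)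
      have h4 := hbd.add h3
      rwa [sub_add_sub_cancel, ← h1] at h4

end Free

end Vale.Agent.P286.H103
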