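import Vale.Agent.P286.H103.ZaW
import Vale.Agent.P286.H389.ThX

/-!
# The morphism from `Theta(Xi F)` to the middle family
-/

namespace Vale.Agent.P286.H103

open CategoryTheory TensorProduct Matrix Vale.Agent.P286.Gen Vale.Agent.P286.H295
  Vale.Agent.P286.H389 Vale.Agent.P286.H761 Vale.Agent.P286.H847 Vale.Agent.P286.H847.SGD
  Vale.Agent.P286.H652 Vale.Agent.P286.H697 Vale.Agent.P286.H710 Vale.Agent.P286.H64
  Vale.Agent.P286.H987 Vale.Agent.P286.H56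

noncomputable section

theorem nop_smul (k : ℕ) {M : Type} [AddCommGroup M] [Module ℂ M] (x : M) :
    (((k : ℤ)).negOnePow : ℤ) • x = (-1 : ℂ) ^ k • x := by
  rw [← Int.cast_smul_eq_zsmul ℂ, Int.negOnePow_def]
  simp

variable {N : ℕ} {Γ : Gps N} [hs : Algebra.Smooth ℂ (Of Γ)] {I : Type} [Fintype I]
  [DecidableEq I] {n : ℕ} (P : XP Γ I n) (F : OmF (BGT Γ))

theorem zlev_d0 (A : Gen.BGObj Γ) (x : Wk I 0 ⊗[ℂ] (Om ℂ A.A.R ⊗[ℂ] (P.G.Xi F).V)) :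
    zlev P F A 0 (LM.twd (H867.yop I 0 n) (LM.tensL (OmS A.A.R) (P.G.Xi F)) x) =
      td (WK I 0) (fib F ((undS A).P 0)).M (zlev P F A 0 x) := by
  refine (zlev_D P F A 0 x).trans ?_
  have e : zq (dga I 0) (Gen.BGHom.f (uA A 0)) (fib F ((undS A).P 0)) (((0 : ℕ) : ℤ) + 1)
      (rdlf P F A 0) x = 0 := by
    refine (zq_sum (dga I 0) (Gen.BGHom.f (uA A 0)) (fib F ((undS A).P 0)) (((0 : ℕ) : ℤ) + 1)
      (∅ : Finset ℕ) (fun _ => 0) (fun _ => 0) (rdlf P F A 0) (fun v => ?_) x).trans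
      Finset.sum_empty
    rw [Finset.sum_empty]
    rfl
  refine (congrArg (_ + ·) e).trans ?_
  rw [add_zero, Nat.cast_zero, Int.negOnePow_zero, Units.val_one, one_smul]

/-- The faces. -/
def fcm (A : Gen.BGObj Γ) (k i : ℕ) : Wk I 0 ⊗[ℂ] (fib F ((undS A).P k)).M.V →ₗ[ℂ]
    Wk I 0 ⊗[ℂ] (fib F ((undS A).P (k + 1))).M.V := (P.G₀.map F (fcR A k i)).f

variable {R : Rpn Γ I} (hR : IsGau P.G₀ R)

include hR in
theorem zlev_dS (A : Gen.BGObj Γ) (k : ℕ)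
    (x : Wk I 0 ⊗[ℂ] (Om ℂ A.A.R ⊗[ℂ] (P.G.Xi F).V)) :
    zlev P F A (k + 1) (LM.twd (H867.yop I 0 n) (LM.tensL (OmS A.A.R) (P.G.Xi F)) x) =
      (-1 : ℂ) ^ (k + 1) • td (WK I 0) (fib F ((undS A).P (k + 1))).M
        (zlev P F A (k + 1) x) +
      ∑ i ∈ Finset.range (k + 2), (-1 : ℂ) ^ i • fcm P F A k i (zlev P F A k x) := by
  refine (zlev_D P F A (k + 1) x).trans ?_
  exact congrArg₂ (· + ·) (nop_smul (k + 1) _) (zlev_rdl P F hR A k x)

variable (hG : GSl P.G₀) (H : H459.GauT P.G₀ (H867.yop I 0 n))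

/-- The levels. -/
def zdata : ZData (PFam.of (thGX H (P.G.Xi F)).jf) (wB hG F) where
  q A k := zlev P F A k
  lin A k a x := zlev_rm P F A k a x
  deg A k m x hx := zlev_gr P F A k m hx
  d0 A x := zlev_d0 P F A x
  dS A k x := zlev_dS P F hR A k x
  nat φ k x := zlev_nat P F hR φ k x

/-- **The morphism `Theta(Xi F) → Mid(F)`.** -/
def zA : GHom (thGX H (P.G.Xi F)).th (mid (wB hG F)) := (zdata P F hR hG H).hom

theorem zA_apply (A : Gen.BGObj Γ) (v : (JG (thA (H867.yop I 0 n) (P.G.Xi F) A.A.R)).V) (k : ℕ) :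
    (((zA P F hR hG H).f A).f v : ∀ k, (((midCS (wB hG F)).at' A).X k).V) k =
      (zdata P F hR hG H).qJ A k v := rfl

end

end Vale.Agent.P286.H103
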