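import Vale.Agent.P286.H103.ZaY
import Vale.Agent.P286.H103.QisBG
import Vale.Agent.P286.H56.TriZ
import Vale.Agent.P286.H710.E1R

/-!
# The natural quasi-isomorphism from `Theta ∘ Xi` to the middle functor
-/

namespace Vale.Agent.P286.H103

open CategoryTheory TensorProduct Matrix Vale.Agent.P286.St Vale.Agent.P286.Gen
  Vale.Agent.P286.H295 Vale.Agent.P286.H389 Vale.Agent.P286.H761 Vale.Agent.P286.H847
  Vale.Agent.P286.H652 Vale.Agent.P286.H697 Vale.Agent.P286.H710 Vale.Agent.P286.H353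
  Vale.Agent.P286.H987 Vale.Agent.P286.H56 Vale.Agent.P286.H274 Vale.Agent.P286.H459

noncomputable section

section Pt

variable {N : ℕ} {Γ : Gps N}

/-- A morphism of cartesian families which is a quasi-isomorphism at the point is a
quasi-isomorphism. -/
theorem qis_of_BPt {F F' : GTD (BGT Γ)} (z : GTD.Coch F F' 0) (hz : z.dl (zero_add 1) = 0)
    (hF : Cx.Cart (GTD.toCx F)) (hF' : Cx.Cart (GTD.toCx F')) (h : GD.Qis (z.hom hz (BPt Γ))) :
    ∀ X, GD.Qis (z.hom hz X) :=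
  (GTD.qis_mor z hz).1 (ptCrit Γ _ _ (GTD.toMor z hz) hF hF' (fun i j k hij hjk =>
    (GTD.hiso_iff z hz (BPt Γ) i j k hij hjk).2 (h j)))

end Pt

variable {N : ℕ} {Γ : Gps N} [hs : Algebra.Smooth ℂ (Of Γ)] {I : Type} [Fintype I]
  [DecidableEq I] (R : Rpn Γ I) (n : ℕ)

/-- The de Rham family of the family of a cartesian complex. -/
def drK (K : Z0 (dgc (BGT Γ))) : OmF (BGT Γ) :=
  DRF (H652.strBG Γ) (gt ((inO (BGT Γ)).z0.obj K))

/-- The morphism to the middle functor. -/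
def zK (K : Z0 (dgc (BGT Γ))) :
    GHom (gt (((XiG (gauX n R)).z0 ⋙ (Yd R n).z0).obj K)) (gt ((MMR R).obj K)) :=
  zA (xp n R) (drK K) (xp_gau R n) (slR R 0) (gauT R 0 n)

theorem zK_nat {K L : Z0 (dgc (BGT Γ))} (a : K ⟶ L) (A : Gen.BGObj Γ)
    (x : ((gt (((XiG (gauX n R)).z0 ⋙ (Yd R n).z0).obj K)).F A).V) :
    ((zK R n L).f A).f (((goh (((XiG (gauX n R)).z0 ⋙ (Yd R n).z0).map a)).f A).f x) =
      ((goh ((MMR R).map a)).f A).f (((zK R n K).f A).f x) :=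
  zA_co (xp n R) (DRF.coch (H652.strBG Γ) (gz ((inO (BGT Γ)).z0.map a))) (xp_gau R n)
    (slR R 0) (gauT R 0 n) A x

/-- The source is cartesian. -/
theorem cart_src (K : Z0 (dgc (BGT Γ))) :
    Cx.Cart (GTD.toCx (gt (((XiG (gauX n R)).z0 ⋙ (Yd R n).z0).obj K))) :=
  Yd_cart R n ((XiG (gauX n R)).obj (zc K))

/-- The target is cartesian. -/
theorem cart_tgt (K : Z0 (dgc (BGT Γ))) : Cx.Cart (GTD.toCx (gt ((MMR R).obj K))) :=
  cart_mid (zMR R) K

/-- The components are quasi-isomorphisms. -/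
theorem zK_qis (hE0 : GD.Qis (R.evU n)) (K : Z0 (dgc (BGT Γ))) (X : (BGT Γ).C) :
    GD.Qis ((zK R n K).f X) := by
  have hpi : GD.Qis ((gauX n R).pi (drK K)) := hpi_R R n hE0 (H652.strBG Γ) (zc K)
  have h0 : GD.Qis ((zK R n K).f (BPt Γ)) := zA_pt R n (drK K) (slR R 0) (gauT R 0 n) hpi
  exact qis_of_BPt (zK R n K).coch ((zK R n K).dl_coch (zero_add 1)) (cart_src R n K) (cart_tgt R K) h0 X

/-- **The natural quasi-isomorphism from `Theta ∘ Xi` to the middle functor.** -/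
theorem zM_R (hE0 : GD.Qis (R.evU n)) :
    NatW (gqis (BGT Γ)) ((XiG (gauX n R)).z0 ⋙ (Yd R n).z0) (MMR R) :=
  natW_g (F := (XiG (gauX n R)).z0 ⋙ (Yd R n).z0) (G := MMR R) (zK R n)
    (fun a A x => zK_nat R n a A x) (zK_qis R n hE0)

end

end Vale.Agent.P286.H103
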