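import Vale.Agent.P286.H374.GauC

/-!
# Gauge transformations and linear maps which intertwine two representations
-/

namespace Vale.Agent.P286.H103

open TensorProduct Matrix Vale.Agent.P286.H710 Vale.Agent.P286.H374.Gau

noncomputable section

section Rel

variable {S T : Type} [AddCommGroup S] [Module ℂ S] [AddCommGroup T] [Module ℂ T]

/-- The operator `x` corresponds to the operator `x'` under `q`. -/
def Rel (q : S →ₗ[ℂ] T) (x : Module.End ℂ S) (x' : Module.End ℂ T) : Prop :=
  ∀ z, q (x z) = x' (q z)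

variable {q : S →ₗ[ℂ] T} {x y : Module.End ℂ S} {x' y' : Module.End ℂ T}

theorem Rel.mul (h : Rel q x x') (h' : Rel q y y') : Rel q (x * y) (x' * y') := by
  intro z
  rw [Module.End.mul_apply, Module.End.mul_apply, h, h']

theorem Rel.add (h : Rel q x x') (h' : Rel q y y') : Rel q (x + y) (x' + y') := by
  intro z
  rw [LinearMap.add_apply, LinearMap.add_apply, map_add, h, h']

theorem Rel.zero : Rel q 0 0 := by
  intro z
  rw [LinearMap.zero_apply, LinearMap.zero_apply, map_zero]

theorem Rel.sum {ι : Type} (s : Finset ι) {x : ι → Module.End ℂ S} {x' : ι → Module.End ℂ T}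
    (h : ∀ i, Rel q (x i) (x' i)) : Rel q (∑ i ∈ s, x i) (∑ i ∈ s, x' i) := by
  intro z
  rw [LinearMap.sum_apply, LinearMap.sum_apply, map_sum]
  exact Finset.sum_congr rfl fun i _ => h i z

theorem Rel.alg (c : ℂ) : Rel q (algebraMap ℂ _ c) (algebraMap ℂ _ c) := by
  intro z
  rw [Module.algebraMap_end_apply, Module.algebraMap_end_apply, map_smul]

theorem Rel.smul (c : ℂ) (h : Rel q x x') : Rel q (c • x) (c • x') := by
  intro z
  rw [LinearMap.smul_apply, LinearMap.smul_apply, map_smul, h]

variable {I : Type} [Fintype I]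

/-- The relation for matrices. -/
def RelM (q : S →ₗ[ℂ] T) (M : Matrix I I (Module.End ℂ S)) (M' : Matrix I I (Module.End ℂ T)) :
    Prop := ∀ i j, Rel q (M i j) (M' i j)

variable {M K : Matrix I I (Module.End ℂ S)} {M' K' : Matrix I I (Module.End ℂ T)}

theorem RelM.mul (h : RelM q M M') (h' : RelM q K K') : RelM q (M * K) (M' * K') := by
  intro i j
  rw [Matrix.mul_apply, Matrix.mul_apply]
  exact Rel.sum _ fun k => (h i k).mul (h' k j)

theorem RelM.add (h : RelM q M M') (h' : RelM q K K') : RelM q (M + K) (M' + K') :=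
  fun i j => (h i j).add (h' i j)

end Rel

variable {I : Type} [Fintype I] [DecidableEq I] {n : ℕ} {y : Fin n → MvPolynomial (I × I) ℂ}
  {W : Type} [Ring W] [Algebra ℂ W] {Q : WD I n y W}
  {S T : Type} [AddCommGroup S] [Module ℂ S] [AddCommGroup T] [Module ℂ T]
  {A B : Type} [CommRing A] [Algebra ℂ A] [CommRing B] [Algebra ℂ B]

/-- A linear map between two representations, compatible with the left multiplications up to `σ`,
with the functions and with the forms up to the sign `c`, is compatible with the gauge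
transformations. -/
theorem rel_aU (R : Rp Q A (Module.End ℂ S)) (R' : Rp Q B (Module.End ℂ T)) (q : S →ₗ[ℂ] T)
    (f : A →ₐ[ℂ] B) (σ : W →ₐ[ℂ] W) (c : ℂ)
    (hlw : ∀ w, Rel q (R.lw w) (R'.lw (σ w))) (hro : ∀ b, Rel q (R.ro b) (R'.ro (f b)))
    (hr1 : ∀ b, Rel q (R.r1 (Om.dd b)) (c • R'.r1 (Om.dd (f b))))
    (hth : ∀ i j, σ (Q.th i j) = c • Q.th i j) (hxi : ∀ i, σ (Q.xi i) = c • Q.xi i)
    (hP : ∀ p, σ (Q.P p) = Q.P p) (U U' : Matrix I I A) (w : W) :
    Rel q (R.aU U U' w) (R'.aU (U.map f) (U'.map f) (σ w)) := by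
  have hroM : ∀ V : Matrix I I A, RelM q (R.roM V) (R'.roM (V.map f)) := fun V i j => hro _
  have hde : ∀ V : Matrix I I A, RelM q (R.deM V) (c • R'.deM (V.map f)) := fun V i j => hr1 _
  have hlwM : RelM q (R.lwM Q.th) (c • R'.lwM Q.th) := by
    intro i j
    have h := hlw (Q.th i j)
    rw [hth, map_smul] at h
    exact h
  induction w using Q.ind with
  | h1 i j =>
    have h := (((hroM U').mul hlwM).mul (hroM U)).add ((hroM U').mul (hde U)) i j
    rw [Rp.aU_th, hth, map_smul, Rp.aU_th]
    have e : (R'.roM (U'.map f) * c • R'.lwM Q.th * R'.roM (U.map f) +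
        R'.roM (U'.map f) * c • R'.deM (U.map f)) i j =
        c • R'.aT (U.map f) (U'.map f) i j := by
      rw [Rp.aT, Matrix.mul_smul, Matrix.smul_mul, Matrix.mul_smul, ← smul_add]
      rfl
    rw [← e]
    exact h
  | h2 i =>
    have h := hlw (Q.xi i)
    rw [hxi, map_smul] at h
    rw [Rp.aU_xi, hxi, map_smul, Rp.aU_xi]
    exact h
  | h3 i j =>
    rw [Rp.aU_F, hP, Rp.aU_F]
    refine (((hroM U').mul (fun k l => ?_)).mul (hroM U)) i j
    have h := hlw (Q.Fm k l)
    rw [WD.Fm_apply, hP] at h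
    exact h
  | hc b =>
    rw [AlgHom.commutes, AlgHom.commutes, AlgHom.commutes]
    exact Rel.alg b
  | ha a b ha hb =>
    rw [map_add, map_add, map_add]
    exact ha.add hb
  | hm a b ha hb =>
    rw [map_mul, map_mul, map_mul]
    exact ha.mul hb

end

end Vale.Agent.P286.H103
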