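import Vale.Agent.P286.H652.Und

/-!
# Morphisms from a family of completed jets to the middle family
-/

namespace Vale.Agent.P286.H103

open CategoryTheory TensorProduct Vale.Agent.P286.Gen Vale.Agent.P286.H295 Vale.Agent.P286.H389
  Vale.Agent.P286.H761 Vale.Agent.P286.H847 Vale.Agent.P286.H652

noncomputable section

section Sum

variable {A V V' : Type} [CommRing A] [Algebra ℂ A] [AddCommGroup V] [Module ℂ V] [Module A V]
  [IsScalarTower ℂ A V] [AddCommGroup V'] [Module ℂ V'] [Module A V'] [IsScalarTower ℂ A V']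

theorem J_map_sum {ι : Type} (s : Finset ι) {u : ι → V →ₗ[ℂ] V'} (h : ∀ i, DO A (u i)) :
    J.map (∑ i ∈ s, u i) (DO.sum s fun i _ => h i) = ∑ i ∈ s, J.map (u i) (h i) := by
  classical
  induction s using Finset.induction_on with
  | empty =>
    refine (J.map_congr Finset.sum_empty _ DO.zero).trans (J.map_zero.trans ?_)
    exact Finset.sum_empty.symm
  | insert a s ha ih =>
    have h1 : J.map (u a) (h a) + J.map (∑ i ∈ s, u i) (DO.sum s fun i _ => h i) =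
        ∑ i ∈ insert a s, J.map (u i) (h i) := by
      rw [Finset.sum_insert ha, ih]
    rw [← h1, ← J.map_add]
    exact J.map_congr (Finset.sum_insert ha) _ _

theorem J_map_eq {u w : V →ₗ[ℂ] V'} (e : ∀ x, u x = w x) (hu : DO A u) (hw : DO A w) (x : J A V) :
    J.map u hu x = J.map w hw x :=
  LinearMap.congr_fun (J.map_congr (LinearMap.ext e) hu hw) x

end Sum

variable {N : ℕ} {Γ : Gps N} [hs : Algebra.Smooth ℂ (Of Γ)]

omit hs in
variable (Γ) in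
/-- A family of graded differential modules on the test objects. -/
structure PFam where
  M : ∀ X : Gen.BGObj Γ, AGD X.A.R
  t : ∀ {X Y : Gen.BGObj Γ} (_ : X ⟶ Y), GD.Hom (M X).toGD (M Y).toGD
  sl : ∀ {X Y : Gen.BGObj Γ} (φ : X ⟶ Y) (a : X.A.R) (x : (M X).V),
    (t φ).f (a • x) = φ.f a • (t φ).f x
  id : ∀ (X : Gen.BGObj Γ) (x : (M X).V), (t (𝟙 X)).f x = x
  comp : ∀ {X Y Z : Gen.BGObj Γ} (φ : X ⟶ Y) (ψ : Y ⟶ Z) (x : (M X).V),
    (t (φ ≫ ψ)).f x = (t ψ).f ((t φ).f x)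

/-- The family on the test category. -/
def PFam.toJ (F : PFam Γ) : JFam (BGT Γ) := ⟨F.M, F.t, F.sl, F.id, F.comp⟩

/-- The family defined by a family on the test category. -/
def PFam.of (F : JFam (BGT Γ)) : PFam Γ := ⟨F.M, F.t, F.sl, F.id, F.comp⟩

omit hs in
theorem PFam.toJ_of (F : JFam (BGT Γ)) : (PFam.of F).toJ = F := rfl

/-- The levels of a morphism to the middle family. -/
structure ZData (Θ : PFam Γ) (F : BFam Γ) where
  q : ∀ (A : Gen.BGObj Γ) (k : ℕ), (Θ.M A).V →ₗ[ℂ] (uMod F (uA A k)).V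
  lin : ∀ (A : Gen.BGObj Γ) (k : ℕ) (a : A.A.R) (x : (Θ.M A).V), q A k (a • x) = a • q A k x
  deg : ∀ (A : Gen.BGObj Γ) (k : ℕ) (m : ℤ) (x : (Θ.M A).V), x ∈ (Θ.M A).gr m →
    q A k x ∈ (uMod F (uA A k)).gr (m - k)
  d0 : ∀ (A : Gen.BGObj Γ) (x : (Θ.M A).V), q A 0 ((Θ.M A).d x) = (uMod F (uA A 0)).d (q A 0 x)
  dS : ∀ (A : Gen.BGObj Γ) (k : ℕ) (x : (Θ.M A).V), q A (k + 1) ((Θ.M A).d x) =
    (-1 : ℂ) ^ (k + 1) • (uMod F (uA A (k + 1))).d (q A (k + 1) x) +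
      ∑ i ∈ Finset.range (k + 2), (-1 : ℂ) ^ i •
        (uT F (uA A k) (uA A (k + 1)) (fcR A k i)).f (q A k x)
  nat : ∀ {A B : Gen.BGObj Γ} (φ : A ⟶ B) (k : ℕ) (x : (Θ.M A).V),
    q B k ((Θ.t φ).f x) = (uT F (uA A k) (uA B k) ((undM φ).P k)).f (q A k x)

namespace ZData

variable {Θ : PFam Γ} {F : BFam Γ} (Z : ZData Θ F)

/-- The map of jets of level `k`. -/
def qJ (A : Gen.BGObj Γ) (k : ℕ) : J A.A.R (Θ.M A).V →ₗ[ℂ] J A.A.R (uMod F (uA A k)).V :=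
  J.map (Z.q A k) (DO.lin (Z.lin A k))

theorem qJ_d0 (A : Gen.BGObj Γ) (x : J A.A.R (Θ.M A).V) :
    Z.qJ A 0 (J.map (Θ.M A).d (Θ.M A).dO x) =
      J.map (uMod F (uA A 0)).d (uMod F (uA A 0)).dO (Z.qJ A 0 x) := by
  have e1 := LinearMap.congr_fun (J.map_comp (A := A.A.R) (Z.q A 0) (DO.lin (Z.lin A 0))
    (Θ.M A).d (Θ.M A).dO) x
  have e2 := LinearMap.congr_fun (J.map_comp (A := A.A.R) (uMod F (uA A 0)).d
    (uMod F (uA A 0)).dO (Z.q A 0) (DO.lin (Z.lin A 0))) x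
  refine e1.symm.trans (Eq.trans ?_ e2)
  exact J_map_eq (Z.d0 A) _ _ x

theorem qJ_dS (A : Gen.BGObj Γ) (k : ℕ) (x : J A.A.R (Θ.M A).V) :
    Z.qJ A (k + 1) (J.map (Θ.M A).d (Θ.M A).dO x) =
      (-1 : ℂ) ^ (k + 1) • J.map (uMod F (uA A (k + 1))).d (uMod F (uA A (k + 1))).dO
        (Z.qJ A (k + 1) x) +
      ∑ i ∈ Finset.range (k + 2), (-1 : ℂ) ^ i • (uJ' F (fcR_w A k i)).f (Z.qJ A k x) := by
  have hfl : ∀ i, DO A.A.R (uT F (uA A k) (uA A (k + 1)) (fcR A k i)).f := fun i =>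
    DO.lin (uT_sl' F (fcR_w A k i))
  have hq : ∀ k, DO A.A.R (Z.q A k) := fun k => DO.lin (Z.lin A k)
  have e1 := LinearMap.congr_fun (J.map_comp (A := A.A.R) (Z.q A (k + 1)) (hq (k + 1))
    (Θ.M A).d (Θ.M A).dO) x
  have e2 := LinearMap.congr_fun (J.map_comp (A := A.A.R) (uMod F (uA A (k + 1))).d
    (uMod F (uA A (k + 1))).dO (Z.q A (k + 1)) (hq (k + 1))) x
  have e3 : ∀ i, (uJ' F (fcR_w A k i)).f (Z.qJ A k x) =
      J.map ((uT F (uA A k) (uA A (k + 1)) (fcR A k i)).f ∘ₗ Z.q A k)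
        ((hfl i).comp (hq k)) x := fun i =>
    (LinearMap.congr_fun (J.map_comp (A := A.A.R)
      (uT F (uA A k) (uA A (k + 1)) (fcR A k i)).f (hfl i) (Z.q A k) (hq k)) x).symm
  have e4 := LinearMap.congr_fun (J_map_sum (A := A.A.R) (Finset.range (k + 2))
    (u := fun i => (-1 : ℂ) ^ i • ((uT F (uA A k) (uA A (k + 1)) (fcR A k i)).f ∘ₗ Z.q A k))
    (fun i => ((hfl i).comp (hq k)).smul _)) x
  have e5 : ∀ i, J.map ((-1 : ℂ) ^ i • ((uT F (uA A k) (uA A (k + 1)) (fcR A k i)).f ∘ₗ Z.q A k))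
      (((hfl i).comp (hq k)).smul _) x =
      (-1 : ℂ) ^ i • (uJ' F (fcR_w A k i)).f (Z.qJ A k x) := by
    intro i
    rw [e3 i]
    exact LinearMap.congr_fun (J.map_smul (A := A.A.R) ((-1 : ℂ) ^ i)
      ((uT F (uA A k) (uA A (k + 1)) (fcR A k i)).f ∘ₗ Z.q A k) ((hfl i).comp (hq k))) x
  have e6 := LinearMap.congr_fun (J.map_smul (A := A.A.R) ((-1 : ℂ) ^ (k + 1))
    ((uMod F (uA A (k + 1))).d ∘ₗ Z.q A (k + 1)) ((uMod F (uA A (k + 1))).dO.comp (hq (k + 1)))) x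
  refine e1.symm.trans ?_
  rw [LinearMap.sum_apply] at e4
  rw [← Finset.sum_congr rfl fun i _ => e5 i, ← e4]
  have e7 : (-1 : ℂ) ^ (k + 1) • J.map (uMod F (uA A (k + 1))).d (uMod F (uA A (k + 1))).dO
        (Z.qJ A (k + 1) x) = J.map ((-1 : ℂ) ^ (k + 1) • ((uMod F (uA A (k + 1))).d ∘ₗ
          Z.q A (k + 1))) (((uMod F (uA A (k + 1))).dO.comp (hq (k + 1))).smul _) x := by
    rw [e6]
    exact congrArg ((-1 : ℂ) ^ (k + 1) • ·) e2.symm
  rw [e7, ← LinearMap.add_apply, ← J.map_add]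
  refine J_map_eq (fun y => ?_) _ _ x
  rw [LinearMap.add_apply, LinearMap.sum_apply]
  exact Z.dS A k y

/-- The map to the product total. -/
def tot (A : Gen.BGObj Γ) : (JG (Θ.M A)).V →ₗ[ℂ] ((midCS F).at' A).Tot.V :=
  LinearMap.pi fun k => Z.qJ A k

theorem tot_apply (A : Gen.BGObj Γ) (x : (JG (Θ.M A)).V) (k : ℕ) :
    (Z.tot A x : ∀ k, (((midCS F).at' A).X k).V) k = Z.qJ A k x := rfl

/-- The morphism at `A`. -/
def homA (A : Gen.BGObj Γ) : GD.Hom (JG (Θ.M A)) ((midCS F).at' A).Tot where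
  f := Z.tot A
  comm x := by
    funext k
    match k with
    | 0 => exact Z.qJ_d0 A x
    | (k + 1) =>
      rw [CS.D_succ, CS.dl_apply]
      exact Z.qJ_dS A k x
  deg m x hx k := JG.map_gr (M := Θ.M A) (N := uMod F (uA A k)) (Z.q A k) (DO.lin (Z.lin A k))
    (Z.deg A k m) hx

theorem hom_tr {A B : Gen.BGObj Γ} (φ : A ⟶ B) (x : (JG (Θ.M A)).V) :
    (Z.homA B).f ((JG.pull φ.f (Θ.t φ) (Θ.sl φ)).f x) =
      ((midCS F).mor φ).tot.f ((Z.homA A).f x) := by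
  funext k
  refine Eq.trans ?_ ((midCS F).tr_apply φ (Z.tot A x) k).symm
  exact (J.pull_map (A := A.A.R) (B := B.A.R) φ.f (Θ.t φ).f (Θ.sl φ)
    (uT F (uA A k) (uA B k) ((undM φ).P k)).f (uT_sl F (uA_undM φ k)) (Z.q A k)
    (DO.lin (Z.lin A k)) (Z.q B k) (DO.lin (Z.lin B k)) (fun y => (Z.nat φ k y).symm) x).symm

theorem hom_fn (A : Gen.BGObj Γ) (a : A.A.R) (x : (JG (Θ.M A)).V) :
    (Z.homA A).f (J.fn a x) = (midCS F).tfn A a ((Z.homA A).f x) := by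
  funext k
  refine (J.map_fn (A := A.A.R) (Z.q A k) (DO.lin (Z.lin A k)) a x).trans ?_
  exact ((midCS F).tfn_apply A a (Z.tot A x) k).symm

theorem hom_vf (A : Gen.BGObj Γ) (v : Derivation ℂ A.A.R A.A.R) (x : (JG (Θ.M A)).V) :
    (Z.homA A).f (J.vf v x) = (midCS F).tvf A v ((Z.homA A).f x) := by
  funext k
  refine (J.map_vf (A := A.A.R) (Z.q A k) (DO.lin (Z.lin A k)) v x).trans ?_
  exact ((midCS F).tvf_apply A v (Z.tot A x) k).symm

/-- **The morphism of families.** -/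
def hom : GHom (Θ.toJ.JT (H652.strBG Γ)) (mid F) where
  f (A : Gen.BGObj Γ) := Z.homA A
  fn (A : Gen.BGObj Γ) a x := Z.hom_fn A a x
  vf (A : Gen.BGObj Γ) v x := Z.hom_vf A v x
  tr φ x := Z.hom_tr φ x

end ZData

end

end Vale.Agent.P286.H103
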