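import Vale.Agent.P286.H103.ZaM
import Vale.Agent.P286.H103.ZaJ
import Vale.Agent.P286.H374.GauH
import Vale.Agent.P286.H459.ThG
import Vale.Agent.P286.H389.ThF

/-!
# The gauge components of the structure maps of the levels
-/

namespace Vale.Agent.P286.H103

open CategoryTheory TensorProduct Matrix Vale.Agent.P286.Gen Vale.Agent.P286.H295
  Vale.Agent.P286.H389 Vale.Agent.P286.H761 Vale.Agent.P286.H847 Vale.Agent.P286.H847.SGD
  Vale.Agent.P286.H652 Vale.Agent.P286.H697 Vale.Agent.P286.H710 Vale.Agent.P286.H64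
  Vale.Agent.P286.H987

noncomputable section

section Hc

variable {N : ℕ} {Γ : Gps N}

theorem h_comp {X Y Z : Gen.BGObj Γ} (φ : X ⟶ Y) (ψ : Y ⟶ Z) :
    Gen.BGHom.h (φ ≫ ψ) = Gen.BGHom.h ψ * Gen.gm (Gen.BGHom.f ψ) (Gen.BGHom.h φ) := rfl

theorem f_comp {X Y Z : Gen.BGObj Γ} (φ : X ⟶ Y) (ψ : Y ⟶ Z) (a : X.A.R) :
    Gen.BGHom.f (φ ≫ ψ) a = Gen.BGHom.f ψ (Gen.BGHom.f φ a) := rfl

theorem h_inl [Algebra.Smooth ℂ (Of Γ)] (X : Gen.BGObj Γ) : Gen.BGHom.h (inl X) = 1 := rfl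

variable [hs : Algebra.Smooth ℂ (Of Γ)]

theorem h_uA (A : Gen.BGObj Γ) : ∀ k, Gen.BGHom.h (uA A k) = 1
  | 0 => rfl
  | (k + 1) => by
    change Gen.BGHom.h (uA A k ≫ inl ((undS A).P k)) = 1
    rw [h_comp, h_uA A k, h_inl, Gen.gm_one, one_mul]

/-- The structure maps under `A` have no gauge component. -/
theorem h_of_uA {A B C : Gen.BGObj Γ} {ι : A ⟶ B} {ι' : A ⟶ C} (ψ : B ⟶ C)
    (h : ι ≫ ψ = ι') (h1 : Gen.BGHom.h ι = 1) (h2 : Gen.BGHom.h ι' = 1) :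
    Gen.BGHom.h ψ = 1 := by
  have e := congrArg Gen.BGHom.h h
  rw [h_comp, h1, h2, Gen.gm_one, mul_one] at e
  exact e

theorem h_fcR (A : Gen.BGObj Γ) (k i : ℕ) : Gen.BGHom.h (fcR A k i) = 1 :=
  h_of_uA _ (fcR_w A k i) (h_uA A k) (h_uA A (k + 1))

theorem h_undM {A B : Gen.BGObj Γ} (φ : A ⟶ B) (k : ℕ) :
    Gen.BGHom.h ((undM φ).P k) = Gen.gm (Gen.BGHom.f (uA B k)) (Gen.BGHom.h φ) := by
  have e := congrArg Gen.BGHom.h (uA_undM φ k)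
  rw [h_comp, h_comp, h_uA, h_uA, Gen.gm_one, mul_one, one_mul] at e
  exact e

end Hc

end

end Vale.Agent.P286.H103
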