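import Vale.Agent.P286.H103.ZaOp

/-!
# The product map of the level `k`

For a homomorphism `f : A → B`, a differential graded module `M` over the forms of `B` and a linear
map `ρ : N → W ⊗ M` the map `zq k ρ : W ⊗ (Om A ⊗ N) → W ⊗ M` is
`w ⊗ (ω ⊗ v) ↦ sg^k(w ω) ρ(v)`.
-/

namespace Vale.Agent.P286.H103

open TensorProduct Vale.Agent.P286.H710 Vale.Agent.P286.H697 Vale.Agent.P286.H847

noncomputable section

variable {W : Type} [Ring W] [Algebra ℂ W] (a : Dga W) {A B : Type} [CommRing A] [Algebra ℂ A]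
  [CommRing B] [Algebra ℂ B] (f : A →ₐ[ℂ] B) (M : OmM B)
  {N : Type} [AddCommGroup N] [Module ℂ N]

/-- The map of forms with the power of the parity. -/
def pbs (n : ℤ) : Om ℂ A →ₗ[ℂ] Om ℂ B where
  toFun w := Om.sgz n (Om.pb f w)
  map_add' v w := by rw [map_add, map_add]
  map_smul' c w := by
    rw [Om.pb_csmul, ← algebraMap_smul B c (Om.pb f w), map_smul, algebraMap_smul]
    rfl

theorem pbs_apply (n : ℤ) (w : Om ℂ A) : pbs f n w = Om.sgz n (Om.pb f w) := rfl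

/-- The map `ω ⊗ v ↦ sg^n(ω) ρ(v)`. -/
def zr (n : ℤ) (ρ : N →ₗ[ℂ] W ⊗[ℂ] M.M.V) : Om ℂ A ⊗[ℂ] N →ₗ[ℂ] W ⊗[ℂ] M.M.V :=
  TensorProduct.lift
    { toFun := fun w => ro a M (pbs f n w) ∘ₗ ρ
      map_add' := fun v w => by rw [map_add, map_add, LinearMap.add_comp]
      map_smul' := fun c w => by
        rw [map_smul, map_smul, LinearMap.smul_comp, RingHom.id_apply] }

theorem zr_tmul (n : ℤ) (ρ : N →ₗ[ℂ] W ⊗[ℂ] M.M.V) (w : Om ℂ A) (v : N) :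
    zr a f M n ρ (w ⊗ₜ[ℂ] v) = ro a M (Om.sgz n (Om.pb f w)) (ρ v) := rfl

/-- The map `w ⊗ (ω ⊗ v) ↦ sg^n(w ω) ρ(v)`. -/
def zq (n : ℤ) (ρ : N →ₗ[ℂ] W ⊗[ℂ] M.M.V) :
    W ⊗[ℂ] (Om ℂ A ⊗[ℂ] N) →ₗ[ℂ] W ⊗[ℂ] M.M.V :=
  TensorProduct.lift
    { toFun := fun w => lw M (a.sgz n w) ∘ₗ zr a f M n ρ
      map_add' := fun v w => by rw [map_add, map_add, LinearMap.add_comp]
      map_smul' := fun c w => by
        rw [map_smul, map_smul, LinearMap.smul_comp, RingHom.id_apply] }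

theorem zq_tmul' (n : ℤ) (ρ : N →ₗ[ℂ] W ⊗[ℂ] M.M.V) (w : W) (x : Om ℂ A ⊗[ℂ] N) :
    zq a f M n ρ (w ⊗ₜ[ℂ] x) = lw M (a.sgz n w) (zr a f M n ρ x) := rfl

theorem zq_tmul (n : ℤ) (ρ : N →ₗ[ℂ] W ⊗[ℂ] M.M.V) (w : W) (u : Om ℂ A) (v : N) :
    zq a f M n ρ (w ⊗ₜ[ℂ] (u ⊗ₜ[ℂ] v)) =
      lw M (a.sgz n w) (ro a M (Om.sgz n (Om.pb f u)) (ρ v)) := rfl

theorem zq_lw (n : ℤ) (ρ : N →ₗ[ℂ] W ⊗[ℂ] M.M.V) (w w' : W) (x : Om ℂ A ⊗[ℂ] N) :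
    zq a f M n ρ ((w * w') ⊗ₜ[ℂ] x) = lw M (a.sgz n w) (zq a f M n ρ (w' ⊗ₜ[ℂ] x)) := by
  rw [zq_tmul', zq_tmul', map_mul, lw_mul]

/-- Two linear maps on the source agree if they agree on the generators. -/
theorem src_ext {V : Type} [AddCommGroup V] [Module ℂ V] {p q : W ⊗[ℂ] (Om ℂ A ⊗[ℂ] N) →ₗ[ℂ] V}
    (h : ∀ (w : W) (u : Om ℂ A) (v : N), p (w ⊗ₜ[ℂ] (u ⊗ₜ[ℂ] v)) = q (w ⊗ₜ[ℂ] (u ⊗ₜ[ℂ] v)))
    (z : W ⊗[ℂ] (Om ℂ A ⊗[ℂ] N)) : p z = q z := by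
  induction z with
  | zero => rw [map_zero, map_zero]
  | tmul w x =>
    induction x with
    | zero => rw [tmul_zero, map_zero, map_zero]
    | tmul u v => exact h w u v
    | add x y hx hy => rw [tmul_add, map_add, map_add, hx, hy]
  | add x y hx hy => rw [map_add, map_add, hx, hy]

/-- The functions of `A` act through `B`. -/
theorem zq_smul (n : ℤ) (ρ : N →ₗ[ℂ] W ⊗[ℂ] M.M.V) (b : A) (w : W) (u : Om ℂ A) (v : N) :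
    zq a f M n ρ (w ⊗ₜ[ℂ] ((b • u) ⊗ₜ[ℂ] v)) =
      ro a M (algebraMap B (Om ℂ B) (f b)) (zq a f M n ρ (w ⊗ₜ[ℂ] (u ⊗ₜ[ℂ] v))) := by
  have h1 : Om.sg (algebraMap B (Om ℂ B) (f b)) = algebraMap B (Om ℂ B) (f b) :=
    AlgHom.commutes _ _
  rw [zq_tmul, zq_tmul, ro_lw_even a M h1, ← ro_mul, Om.pb_smul, map_smul, Algebra.smul_def]

/-- The chain rule of the level `k`. -/
theorem zq_D (n : ℤ) (ρ : N →ₗ[ℂ] W ⊗[ℂ] M.M.V) {ι : Type} [Fintype ι] (y : ι → W)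
    (yc : ∀ i x, y i * x = x * y i) (ys : ∀ i, a.sg (y i) = y i)
    (DN : N →ₗ[ℂ] N) (e : ι → N →ₗ[ℂ] N) (dl : N →ₗ[ℂ] W ⊗[ℂ] M.M.V)
    (hρ : ∀ v, ρ (DN v) - ∑ i, lw M (y i) (ρ (e i v)) =
      (n.negOnePow : ℤ) • tD a M (ρ v) + dl v)
    (w : W) (u : Om ℂ A) (v : N) :
    zq a f M n ρ (a.d w ⊗ₜ[ℂ] (u ⊗ₜ[ℂ] v)) +
      zq a f M n ρ (a.sg w ⊗ₜ[ℂ] (Om.d u ⊗ₜ[ℂ] v + Om.sg u ⊗ₜ[ℂ] DN v)) -
      ∑ i, zq a f M n ρ ((y i * a.sg w) ⊗ₜ[ℂ] (Om.sg u ⊗ₜ[ℂ] e i v)) =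
    (n.negOnePow : ℤ) • tD a M (zq a f M n ρ (w ⊗ₜ[ℂ] (u ⊗ₜ[ℂ] v))) +
      zq a f M (n + 1) dl (w ⊗ₜ[ℂ] (u ⊗ₜ[ℂ] v)) := by
  have ysz : ∀ i, a.sgz n (y i) = y i := by
    intro i
    by_cases h : Even n
    · rw [a.sgz_even h]
    · rw [a.sgz_odd h, ys]
  -- the terms with `y`
  have hy : ∀ i, zq a f M n ρ ((y i * a.sg w) ⊗ₜ[ℂ] (Om.sg u ⊗ₜ[ℂ] e i v)) =
      lw M (a.sgz (n + 1) w) (ro a M (Om.sgz (n + 1) (Om.pb f u)) (lw M (y i) (ρ (e i v)))) := by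
    intro i
    rw [zq_tmul, map_mul, ysz, yc, a.sgz_sg, lw_mul, Om.pb_sg, Om.sgz_sg]
    congr 1
    generalize Om.sgz (n + 1) (Om.pb f u) = θ
    rw [← pe_add_po θ, map_add, LinearMap.add_apply, LinearMap.add_apply, map_add,
      ro_lw_even a M (sg_pe θ), ro_lw_odd a M (sg_po θ), ys]
  rw [Finset.sum_congr rfl fun i _ => hy i, tmul_add, map_add, zq_tmul, zq_tmul, zq_tmul, zq_tmul,
    zq_tmul, tD_lw, tD_ro, a.d_sgz, Om.d_sgz, a.sgz_sg, Om.pb_sg, Om.sgz_sg, a.sg_sgz,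
    Om.sg_sgz, Om.pb_d]
  have h1 : lw M (a.sgz (n + 1) w) (ro a M (Om.sgz (n + 1) (Om.pb f u)) (ρ (DN v))) -
      ∑ i, lw M (a.sgz (n + 1) w) (ro a M (Om.sgz (n + 1) (Om.pb f u)) (lw M (y i) (ρ (e i v)))) =
      (n.negOnePow : ℤ) • lw M (a.sgz (n + 1) w)
          (ro a M (Om.sgz (n + 1) (Om.pb f u)) (tD a M (ρ v))) +
        lw M (a.sgz (n + 1) w) (ro a M (Om.sgz (n + 1) (Om.pb f u)) (dl v)) := by
    rw [← map_sum, ← map_sum, ← map_sub, ← map_sub, hρ, map_add, map_add, map_zsmul, map_zsmul]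
  have h2 : ∀ x : W, (n.negOnePow : ℤ) • (n.negOnePow : ℤ) • x = x := by
    intro x
    rw [smul_smul, Int.units_coe_mul_self, one_smul]
  have h3 : ∀ x : W ⊗[ℂ] M.M.V, (n.negOnePow : ℤ) • (n.negOnePow : ℤ) • x = x := by
    intro x
    rw [smul_smul, Int.units_coe_mul_self, one_smul]
  have h4 : ∀ (c : ℤ) (w : W) (z : W ⊗[ℂ] M.M.V), lw M (c • w) z = c • lw M w z := by
    intro c w z
    rw [map_zsmul]
    rfl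
  have h5 : ∀ (c : ℤ) (w : Om ℂ B) (z : W ⊗[ℂ] M.M.V), ro a M (c • w) z = c • ro a M w z := by
    intro c w z
    rw [map_zsmul]
    rfl
  rw [add_sub_assoc, add_sub_assoc, h1, h4, h5]
  simp only [smul_add, map_add, map_zsmul, h3]
  abel

end

end Vale.Agent.P286.H103
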