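import Vale.Agent.P286.H103.ZaG
import Vale.Agent.P286.H103.ZaQ
import Vale.Agent.P286.H374.GauE

/-!
# The product map and the gauge transformations
-/

namespace Vale.Agent.P286.H103

open TensorProduct Matrix Vale.Agent.P286.H710 Vale.Agent.P286.H697 Vale.Agent.P286.H847
  Vale.Agent.P286.H374.Gau

noncomputable section

variable {I : Type} [Fintype I] [DecidableEq I] {m : ℕ} {y : Fin m → MvPolynomial (I × I) ℂ}
  {W : Type} [Ring W] [Algebra ℂ W] (a : Dga W) (Q : WD I m y W)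
  {A B : Type} [CommRing A] [Algebra ℂ A] [CommRing B] [Algebra ℂ B]

section Lin

variable (M : OmM B) {X : Type} [AddCommGroup X] [Module ℂ X]

/-- The map `w ⊗ x ↦ sg^n(w) r(x)`. -/
def zl (n : ℤ) (r : X →ₗ[ℂ] W ⊗[ℂ] M.M.V) : W ⊗[ℂ] X →ₗ[ℂ] W ⊗[ℂ] M.M.V :=
  TensorProduct.lift
    { toFun := fun w => H103.lw M (a.sgz n w) ∘ₗ r
      map_add' := fun v w => by rw [map_add, map_add, LinearMap.add_comp]
      map_smul' := fun c w => by
        rw [map_smul, map_smul, LinearMap.smul_comp, RingHom.id_apply] }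

theorem zl_tmul (n : ℤ) (r : X →ₗ[ℂ] W ⊗[ℂ] M.M.V) (w : W) (x : X) :
    zl a M n r (w ⊗ₜ[ℂ] x) = H103.lw M (a.sgz n w) (r x) := rfl

theorem zq_eq {N : Type} [AddCommGroup N] [Module ℂ N] (f : A →ₐ[ℂ] B) (n : ℤ)
    (ρ : N →ₗ[ℂ] W ⊗[ℂ] M.M.V) : zq a f M n ρ = zl a M n (zr a f M n ρ) := rfl

theorem zl_lw (n : ℤ) (r : X →ₗ[ℂ] W ⊗[ℂ] M.M.V) (w : W) (z : W ⊗[ℂ] X) :
    zl a M n r (H374.Gau.lw X w z) = H103.lw M (a.sgz n w) (zl a M n r z) := by
  induction z with
  | zero => simp only [map_zero]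
  | tmul v x => rw [H374.Gau.lw_tmul, zl_tmul, zl_tmul, map_mul, H103.lw_mul]
  | add x y hx hy => simp only [map_add, hx, hy]

end Lin

section Sgz

theorem sgz_neg (n : ℤ) {w : W} (h : a.sg w = -w) : a.sgz n w = ((n.negOnePow : ℤ) : ℂ) • w := by
  rw [Int.cast_smul_eq_zsmul]
  by_cases he : Even n
  · rw [a.sgz_even he, Int.negOnePow_even n he]
    simp
  · rw [a.sgz_odd he, h, Int.negOnePow_odd n (Int.not_even_iff_odd.1 he)]
    simp

theorem sgz_pos (n : ℤ) {w : W} (h : a.sg w = w) : a.sgz n w = w := by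
  by_cases he : Even n
  · rw [a.sgz_even he]
  · rw [a.sgz_odd he, h]

end Sgz

section Ro

variable (M : OmM B)

theorem ro_alg (b : B) (z : W ⊗[ℂ] M.M.V) :
    H103.ro a M (algebraMap B (Om ℂ B) b) z = H374.Gau.ro M.M.V W b z := by
  induction z with
  | zero => simp only [map_zero]
  | tmul v x => rw [H374.Gau.ro_tmul, ro_tmul_even a M (AlgHom.commutes _ _)]
  | add x y hx hy => simp only [map_add, hx, hy]

theorem ro_dd (b : B) (z : W ⊗[ℂ] M.M.V) :
    H103.ro a M (Om.dd b) z = H374.Gau.r1 a.sg M.M.V (Om.dd b) z := by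
  induction z with
  | zero => simp only [map_zero]
  | tmul v x => rw [H374.Gau.r1_tmul, ro_tmul_odd a M (Om.sg_dd _)]
  | add x y hx hy => simp only [map_add, hx, hy]

end Ro

/-- The compatibility of the two sets of letters. -/
structure Cpt (a : Dga W) (Q : WD I m y W) : Prop where
  s : ∀ w, Q.s w = a.sg w
  d : ∀ w, Q.d w = a.d w

variable {a Q}

theorem Cpt.s' (h : Cpt a Q) : Q.s = a.sg := AlgHom.ext h.s

section Nat

variable (hc : Cpt a Q) (S : OmM A) (M : OmM B) (f : A →ₐ[ℂ] B) {n : ℤ}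
  {r : S.M.V →ₗ[ℂ] W ⊗[ℂ] M.M.V}

include hc

/-- The product map intertwines the gauge transformations. -/
theorem rel_zl (hr : ∀ (u : Om ℂ A) (x : S.M.V),
      r (u • x) = H103.ro a M (Om.sgz n (Om.pb f u)) (r x)) (U U' : Matrix I I A) (w : W) :
    H103.Rel (zl a M n r) ((rM Q S).aU U U' w)
      ((rM Q M).aU (U.map f) (U'.map f) (a.sgz n w)) := by
  refine H103.rel_aU (rM Q S) (rM Q M) (zl a M n r) f (a.sgz n) (((n.negOnePow : ℤ) : ℂ))
    (fun w z => zl_lw a M n r w z) (fun b z => ?_) (fun b z => ?_)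
    (fun i j => sgz_neg a n (by rw [← hc.s, Q.sth]))
    (fun i => sgz_neg a n (by rw [← hc.s, Q.sxi]))
    (fun p => sgz_pos a n (by rw [← hc.s, Q.sP])) U U' w
  · change zl a M n r (H374.Gau.ro S.M.V W b z) = H374.Gau.ro M.M.V W (f b) (zl a M n r z)
    rw [← ro_alg a M]
    induction z with
    | zero => simp only [map_zero]
    | tmul v x =>
      rw [H374.Gau.ro_tmul, zl_tmul, zl_tmul, hr, Om.pb_alg, AlgHom.commutes,
        ro_lw_even a M (AlgHom.commutes _ _)]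
    | add x y hx hy => simp only [map_add, hx, hy]
  · change zl a M n r (H374.Gau.r1 Q.s S.M.V (Om.dd b) z) =
      ((n.negOnePow : ℤ) : ℂ) • H374.Gau.r1 Q.s M.M.V (Om.dd (f b)) (zl a M n r z)
    have hsc : ∀ z : W ⊗[ℂ] M.M.V,
        ((n.negOnePow : ℤ) : ℂ) • z = (n.negOnePow : ℤ) • z := fun z =>
      Int.cast_smul_eq_zsmul ℂ _ z
    rw [hc.s', ← ro_dd a M, hsc]
    induction z with
    | zero => simp only [map_zero, smul_zero]
    | tmul v x =>
      rw [H374.Gau.r1_tmul, zl_tmul, zl_tmul, hr, Om.pb_dd, Om.sgz_dd, a.sgz_sg,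
        ro_lw_odd a M (Om.sg_dd _), a.sg_sgz, map_zsmul, LinearMap.smul_apply, map_zsmul]
    | add x y hx hy => simp only [map_add, hx, hy, smul_add]

end Nat

section Gro

variable (hc : Cpt a Q) {M : OmM A} {M' : OmM B} {t : M.M.V →ₗ[ℂ] M'.M.V} {U U' : Matrix I I B}
  {f : A →ₐ[ℂ] B}

include hc

/-- The gauge transition maps are semilinear over the forms. -/
theorem G_ro_all (ht : ∀ (w : Om ℂ A) (x : M.M.V), t (w • x) = Om.pb f w • t x) (u : Om ℂ A)
    (z : W ⊗[ℂ] M.M.V) :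
    G Q M M' t U U' (H103.ro a M u z) = H103.ro a M' (Om.pb f u) (G Q M M' t U U' z) := by
  induction u using Om.induction generalizing z with
  | alg b =>
    rw [ro_alg, Om.pb_alg, ro_alg]
    exact G_ro (Q := Q) ht b z
  | dd b =>
    rw [ro_dd, Om.pb_dd, ro_dd, ← hc.s']
    exact G_r1 (Q := Q) ht b z
  | mul u v hu hv => rw [H103.ro_mul, hu, hv, map_mul, H103.ro_mul]
  | add u v hu hv =>
    rw [map_add, LinearMap.add_apply, map_add, hu, hv, map_add, map_add, LinearMap.add_apply]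

end Gro

section Square

variable {A' B' : Type} [CommRing A'] [Algebra ℂ A'] [CommRing B'] [Algebra ℂ B']

/-- **Naturality of the product map.** -/
theorem zl_G (hc : Cpt a Q) (S : OmM A) (S' : OmM A') (M : OmM B) (M' : OmM B') (f' : A' →ₐ[ℂ] B')
    (n : ℤ) (r : S.M.V →ₗ[ℂ] W ⊗[ℂ] M.M.V) (r' : S'.M.V →ₗ[ℂ] W ⊗[ℂ] M'.M.V)
    (hr' : ∀ (u : Om ℂ A') (x : S'.M.V),
      r' (u • x) = H103.ro a M' (Om.sgz n (Om.pb f' u)) (r' x))
    (tS : S.M.V →ₗ[ℂ] S'.M.V) (tM : M.M.V →ₗ[ℂ] M'.M.V) (U U' : Matrix I I A')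
    (h : ∀ x : S.M.V, r' (tS x) = G Q M M' tM (U.map f') (U'.map f') (r x))
    (z : W ⊗[ℂ] S.M.V) :
    zl a M' n r' (G Q S S' tS U U' z) =
      G Q M M' tM (U.map f') (U'.map f') (zl a M n r z) := by
  induction z with
  | zero => simp only [map_zero]
  | tmul w x =>
    rw [G_tmul, rel_zl hc S' M' f' hr' U U' w, zl_tmul, zl_tmul]
    have h1 : G Q M M' tM (U.map f') (U'.map f') (H103.lw M (a.sgz n w) (r x)) =
        (rM Q M').aU (U.map f') (U'.map f') (a.sgz n w)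
          (G Q M M' tM (U.map f') (U'.map f') (r x)) := G_lw (a.sgz n w) (r x)
    rw [h1, ← h, map_one, H103.lw_one]
  | add x y hx hy => simp only [map_add, hx, hy]

end Square

end

end Vale.Agent.P286.H103
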