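import Vale.Agent.P286.H697.OmF
import Vale.Agent.P286.H847.Ten

/-!
# Operators on the tensor product of a dg algebra and a dg module over forms

`W` is an algebra with a parity automorphism `sg` and an odd derivation `d`, and `M` is a
differential graded module over the forms of `B`.  On `W ⊗ M` the elements of `W` act by left
multiplication (`lw`) and the forms act by `ro ω (w ⊗ x) = ± w ⊗ ω x`.
-/

namespace Vale.Agent.P286.H103

open TensorProduct Vale.Agent.P286.H710 Vale.Agent.P286.H697 Vale.Agent.P286.H847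

noncomputable section

/-- An algebra with a parity automorphism and an odd derivation. -/
structure Dga (W : Type) [Ring W] [Algebra ℂ W] where
  sg : W →ₐ[ℂ] W
  d : W →ₗ[ℂ] W
  sg_sg : ∀ x, sg (sg x) = x
  leib : ∀ x y, d (x * y) = d x * y + sg x * d y
  sg_d : ∀ x, sg (d x) = - d (sg x)
  gr : ℤ → Submodule ℂ W
  mul_mem : ∀ (i j : ℤ) (x y : W), x ∈ gr i → y ∈ gr j → x * y ∈ gr (i + j)
  sg_mem : ∀ (i : ℤ) (x : W), x ∈ gr i → sg x ∈ gr i

namespace Dga

variable {W : Type} [Ring W] [Algebra ℂ W] (a : Dga W)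

/-- The power `n` of the parity automorphism. -/
def sgz (n : ℤ) : W →ₐ[ℂ] W := if Even n then AlgHom.id ℂ W else a.sg

theorem sgz_even {n : ℤ} (h : Even n) (w : W) : a.sgz n w = w := by
  rw [sgz, if_pos h]; rfl

theorem sgz_odd {n : ℤ} (h : ¬ Even n) (w : W) : a.sgz n w = a.sg w := by
  rw [sgz, if_neg h]

@[simp] theorem sgz_zero (w : W) : a.sgz 0 w = w := a.sgz_even (by simp) w

theorem sgz_sgz (m n : ℤ) (w : W) : a.sgz m (a.sgz n w) = a.sgz (m + n) w := by
  by_cases h1 : Even m <;> by_cases h2 : Even n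
  · rw [a.sgz_even h1, a.sgz_even h2, a.sgz_even (h1.add h2)]
  · rw [a.sgz_even h1, a.sgz_odd h2, a.sgz_odd (fun h => h2 ((Int.even_add.1 h).1 h1))]
  · rw [a.sgz_odd h1, a.sgz_even h2, a.sgz_odd (fun h => h1 ((Int.even_add.1 h).2 h2))]
  · rw [a.sgz_odd h1, a.sgz_odd h2, a.sg_sg, a.sgz_even]
    exact Int.even_add.2 ⟨fun h => absurd h h1, fun h => absurd h h2⟩

theorem sgz_one (w : W) : a.sgz 1 w = a.sg w := a.sgz_odd (by decide) w

theorem sgz_sg (n : ℤ) (w : W) : a.sgz n (a.sg w) = a.sgz (n + 1) w := by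
  rw [← a.sgz_one, sgz_sgz]

theorem sg_sgz (n : ℤ) (w : W) : a.sg (a.sgz n w) = a.sgz (n + 1) w := by
  rw [← a.sgz_one, sgz_sgz, add_comm]

theorem sgz_mem (n : ℤ) {i : ℤ} {w : W} (hw : w ∈ a.gr i) : a.sgz n w ∈ a.gr i := by
  by_cases h : Even n
  · rwa [a.sgz_even h]
  · rw [a.sgz_odd h]; exact a.sg_mem i w hw

theorem d_sgz (n : ℤ) (w : W) : a.d (a.sgz n w) = (n.negOnePow : ℤ) • a.sgz n (a.d w) := by
  by_cases h : Even n
  · rw [a.sgz_even h, a.sgz_even h, Int.negOnePow_even n h]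
    simp
  · rw [a.sgz_odd h, a.sgz_odd h, a.sg_d, Int.negOnePow_odd n (Int.not_even_iff_odd.1 h)]
    simp

end Dga

section Parity

variable (B : Type) [CommRing B] [Algebra ℂ B]

/-- The parity automorphism as a linear map. -/
def sgl : Om ℂ B →ₗ[ℂ] Om ℂ B := (Om.sg (k := ℂ) (A := B)).toLinearMap.restrictScalars ℂ

/-- The even part of a form. -/
def pe : Om ℂ B →ₗ[ℂ] Om ℂ B := (1 / 2 : ℂ) • (LinearMap.id + sgl B)

/-- The odd part of a form. -/
def po : Om ℂ B →ₗ[ℂ] Om ℂ B := (1 / 2 : ℂ) • (LinearMap.id - sgl B)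

variable {B}

theorem sgl_apply (w : Om ℂ B) : sgl B w = Om.sg w := rfl

theorem pe_apply (w : Om ℂ B) : pe B w = (1 / 2 : ℂ) • (w + Om.sg w) := rfl

theorem po_apply (w : Om ℂ B) : po B w = (1 / 2 : ℂ) • (w - Om.sg w) := rfl

theorem pe_add_po (w : Om ℂ B) : pe B w + po B w = w := by
  rw [pe_apply, po_apply, ← smul_add, add_add_sub_cancel, ← two_smul ℂ w, smul_smul]
  norm_num

theorem pe_of_even {w : Om ℂ B} (h : Om.sg w = w) : pe B w = w := by
  rw [pe_apply, h, ← two_smul ℂ w, smul_smul]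
  norm_num

theorem po_of_even {w : Om ℂ B} (h : Om.sg w = w) : po B w = 0 := by
  rw [po_apply, h, sub_self, smul_zero]

theorem pe_of_odd {w : Om ℂ B} (h : Om.sg w = -w) : pe B w = 0 := by
  rw [pe_apply, h, add_neg_cancel, smul_zero]

theorem po_of_odd {w : Om ℂ B} (h : Om.sg w = -w) : po B w = w := by
  rw [po_apply, h, sub_neg_eq_add, ← two_smul ℂ w, smul_smul]
  norm_num

theorem sg_pe (w : Om ℂ B) : Om.sg (pe B w) = pe B w := by
  rw [pe_apply, Om.sg_csmul, map_add, H710.Om.sg_sg, add_comm]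

theorem sg_po (w : Om ℂ B) : Om.sg (po B w) = - po B w := by
  rw [po_apply, Om.sg_csmul, map_sub, H710.Om.sg_sg, ← smul_neg, neg_sub]

theorem pe_sg (w : Om ℂ B) : pe B (Om.sg w) = pe B w := by
  rw [pe_apply, pe_apply, H710.Om.sg_sg, add_comm]

theorem po_sg (w : Om ℂ B) : po B (Om.sg w) = - po B w := by
  rw [po_apply, po_apply, H710.Om.sg_sg, ← smul_neg, neg_sub]

theorem pe_mul (v w : Om ℂ B) : pe B (v * w) = pe B v * pe B w + po B v * po B w := by
  have h : pe B (v * w) = pe B ((pe B v + po B v) * (pe B w + po B w)) := by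
    rw [pe_add_po, pe_add_po]
  rw [h, add_mul, mul_add, mul_add, map_add, map_add, map_add,
    pe_of_even (w := pe B v * pe B w) (by rw [map_mul, sg_pe, sg_pe]),
    pe_of_odd (w := pe B v * po B w) (by rw [map_mul, sg_pe, sg_po, mul_neg]),
    pe_of_odd (w := po B v * pe B w) (by rw [map_mul, sg_pe, sg_po, neg_mul]),
    pe_of_even (w := po B v * po B w) (by rw [map_mul, sg_po, sg_po, neg_mul_neg]),
    add_zero, zero_add]

theorem po_mul (v w : Om ℂ B) : po B (v * w) = pe B v * po B w + po B v * pe B w := by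
  have h : po B (v * w) = po B ((pe B v + po B v) * (pe B w + po B w)) := by
    rw [pe_add_po, pe_add_po]
  rw [h, add_mul, mul_add, mul_add, map_add, map_add, map_add,
    po_of_even (w := pe B v * pe B w) (by rw [map_mul, sg_pe, sg_pe]),
    po_of_odd (w := pe B v * po B w) (by rw [map_mul, sg_pe, sg_po, mul_neg]),
    po_of_odd (w := po B v * pe B w) (by rw [map_mul, sg_pe, sg_po, neg_mul]),
    po_of_even (w := po B v * po B w) (by rw [map_mul, sg_po, sg_po, neg_mul_neg]),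
    add_zero, zero_add]

theorem pe_d (w : Om ℂ B) : pe B (Om.d w) = Om.d (po B w) := by
  rw [pe_apply, po_apply, Om.d_csmul, Om.d_sub, Om.d_sg, sub_neg_eq_add]

theorem po_d (w : Om ℂ B) : po B (Om.d w) = Om.d (pe B w) := by
  rw [pe_apply, po_apply, Om.d_csmul, Om.d_add, Om.d_sg, sub_eq_add_neg]

end Parity

section Ops

variable {W : Type} [Ring W] [Algebra ℂ W] (a : Dga W) {B : Type} [CommRing B] [Algebra ℂ B]
  (M : OmM B)

/-- The multiplication by a form, as a linear map. -/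
def sml : Om ℂ B →ₗ[ℂ] M.M.V →ₗ[ℂ] M.M.V where
  toFun w :=
    { toFun := fun x => w • x
      map_add' := smul_add w
      map_smul' := fun c x => (OmF.Coch.smul_comm' M c w x).symm }
  map_add' v w := LinearMap.ext fun x => add_smul v w x
  map_smul' c w := LinearMap.ext fun x => smul_assoc c w x

@[simp] theorem sml_apply (w : Om ℂ B) (x : M.M.V) : sml M w x = w • x := rfl

theorem sml_mul (v w : Om ℂ B) : sml M (v * w) = sml M v ∘ₗ sml M w :=
  LinearMap.ext fun x => mul_smul v w x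

theorem sml_one : sml M 1 = LinearMap.id := LinearMap.ext fun x => one_smul _ x

theorem d_sml (w : Om ℂ B) : M.M.d ∘ₗ sml M w = sml M (Om.d w) + sml M (Om.sg w) ∘ₗ M.M.d :=
  LinearMap.ext fun x => M.leib w x

/-- The left multiplication by an element of `W`. -/
def lw : W →ₗ[ℂ] (W ⊗[ℂ] M.M.V →ₗ[ℂ] W ⊗[ℂ] M.M.V) where
  toFun w := TensorProduct.map (LinearMap.mulLeft ℂ w) LinearMap.id
  map_add' v w := by
    ext x y
    simp [add_mul, add_tmul]
  map_smul' c w := by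
    ext x y
    simp [smul_tmul']

@[simp] theorem lw_tmul (w w' : W) (x : M.M.V) : lw M w (w' ⊗ₜ[ℂ] x) = (w * w') ⊗ₜ[ℂ] x := rfl

theorem lw_mul (w w' : W) (z : W ⊗[ℂ] M.M.V) : lw M (w * w') z = lw M w (lw M w' z) := by
  induction z with
  | zero => rw [map_zero, map_zero, map_zero]
  | tmul v x => rw [lw_tmul, lw_tmul, lw_tmul, mul_assoc]
  | add x y hx hy => rw [map_add, map_add, map_add, hx, hy]

theorem lw_one (z : W ⊗[ℂ] M.M.V) : lw M (1 : W) z = z := by
  induction z with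
  | zero => rw [map_zero]
  | tmul v x => rw [lw_tmul, one_mul]
  | add x y hx hy => rw [map_add, hx, hy]

/-- The action of a form, with the sign rule. -/
def ro : Om ℂ B →ₗ[ℂ] (W ⊗[ℂ] M.M.V →ₗ[ℂ] W ⊗[ℂ] M.M.V) where
  toFun w := TensorProduct.map LinearMap.id (sml M (pe B w)) +
    TensorProduct.map a.sg.toLinearMap (sml M (po B w))
  map_add' v w := by
    rw [map_add, map_add, map_add, map_add, TensorProduct.map_add_right,
      TensorProduct.map_add_right]
    abel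
  map_smul' c w := by
    rw [map_smul, map_smul, map_smul, map_smul, TensorProduct.map_smul_right,
      TensorProduct.map_smul_right, smul_add, RingHom.id_apply]

theorem ro_tmul (w : Om ℂ B) (v : W) (x : M.M.V) : ro a M w (v ⊗ₜ[ℂ] x) =
    v ⊗ₜ[ℂ] (pe B w • x) + a.sg v ⊗ₜ[ℂ] (po B w • x) := rfl

theorem ro_tmul_even {w : Om ℂ B} (h : Om.sg w = w) (v : W) (x : M.M.V) :
    ro a M w (v ⊗ₜ[ℂ] x) = v ⊗ₜ[ℂ] (w • x) := by
  rw [ro_tmul, pe_of_even h, po_of_even h, zero_smul, tmul_zero, add_zero]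

theorem ro_tmul_odd {w : Om ℂ B} (h : Om.sg w = -w) (v : W) (x : M.M.V) :
    ro a M w (v ⊗ₜ[ℂ] x) = a.sg v ⊗ₜ[ℂ] (w • x) := by
  rw [ro_tmul, pe_of_odd h, po_of_odd h, zero_smul, tmul_zero, zero_add]

theorem ro_mul (v w : Om ℂ B) (z : W ⊗[ℂ] M.M.V) :
    ro a M (v * w) z = ro a M v (ro a M w z) := by
  induction z with
  | zero => rw [map_zero, map_zero, map_zero]
  | tmul u x =>
    rw [ro_tmul, ro_tmul, map_add, ro_tmul, ro_tmul, pe_mul, po_mul, add_smul, add_smul,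
      mul_smul, mul_smul, mul_smul, mul_smul, tmul_add, tmul_add, a.sg_sg]
    abel
  | add x y hx hy => rw [map_add, map_add, map_add, hx, hy]

theorem ro_one (z : W ⊗[ℂ] M.M.V) : ro a M 1 z = z := by
  induction z with
  | zero => rw [map_zero]
  | tmul u x => rw [ro_tmul_even a M (map_one _), one_smul]
  | add x y hx hy => rw [map_add, hx, hy]

/-- Even forms commute with the left multiplications. -/
theorem ro_lw_even {w : Om ℂ B} (h : Om.sg w = w) (v : W) (z : W ⊗[ℂ] M.M.V) :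
    ro a M w (lw M v z) = lw M v (ro a M w z) := by
  induction z with
  | zero => rw [map_zero, map_zero, map_zero]
  | tmul u x => rw [lw_tmul, ro_tmul_even a M h, ro_tmul_even a M h, lw_tmul]
  | add x y hx hy => rw [map_add, map_add, map_add, map_add, hx, hy]

/-- Odd forms and left multiplications. -/
theorem ro_lw_odd {w : Om ℂ B} (h : Om.sg w = -w) (v : W) (z : W ⊗[ℂ] M.M.V) :
    ro a M w (lw M v z) = lw M (a.sg v) (ro a M w z) := by
  induction z with
  | zero => rw [map_zero, map_zero, map_zero]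
  | tmul u x => rw [lw_tmul, ro_tmul_odd a M h, ro_tmul_odd a M h, lw_tmul, map_mul]
  | add x y hx hy => rw [map_add, map_add, map_add, map_add, hx, hy]

/-- The differential of the tensor product. -/
def tD : W ⊗[ℂ] M.M.V →ₗ[ℂ] W ⊗[ℂ] M.M.V :=
  TensorProduct.map a.d LinearMap.id + TensorProduct.map a.sg.toLinearMap M.M.d

theorem tD_tmul (w : W) (x : M.M.V) :
    tD a M (w ⊗ₜ[ℂ] x) = a.d w ⊗ₜ[ℂ] x + a.sg w ⊗ₜ[ℂ] M.M.d x := rfl

theorem tD_lw (w : W) (z : W ⊗[ℂ] M.M.V) :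
    tD a M (lw M w z) = lw M (a.d w) z + lw M (a.sg w) (tD a M z) := by
  induction z with
  | zero => simp
  | tmul u x =>
    rw [lw_tmul, tD_tmul, lw_tmul, tD_tmul, map_add, lw_tmul, lw_tmul, a.leib, map_mul, add_tmul,
      add_assoc]
  | add x y hx hy =>
    simp only [map_add, hx, hy]
    abel

theorem d_smul (w : Om ℂ B) (x : M.M.V) : M.M.d (w • x) = Om.d w • x + Om.sg w • M.M.d x :=
  M.leib w x

theorem tD_ro (w : Om ℂ B) (z : W ⊗[ℂ] M.M.V) :
    tD a M (ro a M w z) = ro a M (Om.d w) z + ro a M (Om.sg w) (tD a M z) := by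
  induction z with
  | zero => simp
  | tmul u x =>
    rw [ro_tmul, map_add, tD_tmul, tD_tmul, ro_tmul, tD_tmul, map_add, ro_tmul, ro_tmul, d_smul,
      d_smul, sg_pe, sg_po, pe_d, po_d, pe_sg, po_sg, a.sg_sg]
    simp only [neg_smul, tmul_add, tmul_neg, a.sg_d, neg_tmul]
    abel
  | add x y hx hy =>
    simp only [map_add, hx, hy]
    abel

/-- The homogeneous elements of the tensor product. -/
def tG (m : ℤ) : Submodule ℂ (W ⊗[ℂ] M.M.V) :=
  Submodule.span ℂ {z | ∃ (i j : ℤ) (x : W) (y : M.M.V),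
    i + j = m ∧ x ∈ a.gr i ∧ y ∈ M.M.gr j ∧ z = x ⊗ₜ[ℂ] y}

theorem tG_tmul {i j m : ℤ} (h : i + j = m) {x : W} {y : M.M.V} (hx : x ∈ a.gr i)
    (hy : y ∈ M.M.gr j) : x ⊗ₜ[ℂ] y ∈ tG a M m :=
  Submodule.subset_span ⟨i, j, x, y, h, hx, hy, rfl⟩

theorem tG_le {m : ℤ} {P : Submodule ℂ (W ⊗[ℂ] M.M.V)}
    (h : ∀ (i j : ℤ) (x : W) (y : M.M.V), i + j = m → x ∈ a.gr i → y ∈ M.M.gr j →
      x ⊗ₜ[ℂ] y ∈ P) : tG a M m ≤ P := by
  refine Submodule.span_le.2 ?_
  rintro z ⟨i, j, x, y, h1, hx, hy, rfl⟩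
  exact h i j x y h1 hx hy

theorem lw_mem {i m : ℤ} {w : W} (hw : w ∈ a.gr i) {z : W ⊗[ℂ] M.M.V} (hz : z ∈ tG a M m) :
    lw M w z ∈ tG a M (i + m) := by
  have h : tG a M m ≤ (tG a M (i + m)).comap (lw M w) := by
    refine tG_le a M fun p q x y hpq hx hy => ?_
    rw [Submodule.mem_comap, lw_tmul]
    exact tG_tmul a M (by rw [← hpq, add_assoc]) (a.mul_mem i p w x hw hx) hy
  exact h hz

theorem sgO_mem {B : Type} [CommRing B] [Algebra ℂ B] {p : ℕ} {w : Om ℂ B}
    (hw : w ∈ Om.gr ℂ B p) : pe B w ∈ Om.gr ℂ B p ∧ po B w ∈ Om.gr ℂ B p := by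
  have hc : ∀ (c : ℂ) (x : Om ℂ B), x ∈ Om.gr ℂ B p → c • x ∈ Om.gr ℂ B p := by
    intro c x hx
    rw [← algebraMap_smul B c x]
    exact Submodule.smul_mem _ _ hx
  exact ⟨hc _ _ (add_mem hw (Om.sg_mem hw)), hc _ _ (sub_mem hw (Om.sg_mem hw))⟩

theorem ro_mem {p : ℕ} {m : ℤ} {w : Om ℂ B} (hw : w ∈ Om.gr ℂ B p) {z : W ⊗[ℂ] M.M.V}
    (hz : z ∈ tG a M m) : ro a M w z ∈ tG a M (p + m) := by
  have h : tG a M m ≤ (tG a M (p + m)).comap (ro a M w) := by
    refine tG_le a M fun i j x y hij hx hy => ?_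
    rw [Submodule.mem_comap, ro_tmul]
    refine add_mem ?_ ?_
    · exact tG_tmul a M (by rw [← hij]; ring) hx (M.smul_gr p j _ y (sgO_mem hw).1 hy)
    · exact tG_tmul a M (by rw [← hij]; ring) (a.sg_mem i x hx)
        (M.smul_gr p j _ y (sgO_mem hw).2 hy)
  exact h hz

end Ops

end

end Vale.Agent.P286.H103
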