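import Vale.Agent.P286.H103.ZaH
import Vale.Agent.P286.H56.ZqC
import Vale.Agent.P286.H652.WB
import Vale.Agent.P286.H867.Yop

/-!
# The levels of the morphism from `Theta(Xi F)` to the middle family
-/

namespace Vale.Agent.P286.H103

open CategoryTheory TensorProduct Matrix Vale.Agent.P286.Gen Vale.Agent.P286.H295
  Vale.Agent.P286.H389 Vale.Agent.P286.H761 Vale.Agent.P286.H847 Vale.Agent.P286.H847.SGD
  Vale.Agent.P286.H652 Vale.Agent.P286.H697 Vale.Agent.P286.H710 Vale.Agent.P286.H64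
  Vale.Agent.P286.H987 Vale.Agent.P286.H56

noncomputable section

section Alg

variable {W : Type} [Ring W] [Algebra ℂ W] (a : Dga W) {A B : Type} [CommRing A] [Algebra ℂ A]
  [CommRing B] [Algebra ℂ B] (f : A →ₐ[ℂ] B) (M : OmM B)
  {N : Type} [AddCommGroup N] [Module ℂ N]

/-- The products with forms, on the generators. -/
theorem zr_om (n : ℤ) (ρ : N →ₗ[ℂ] W ⊗[ℂ] M.M.V) (u : Om ℂ A) (x : Om ℂ A ⊗[ℂ] N) :
    zr a f M n ρ (u • x) = ro a M (Om.sgz n (Om.pb f u)) (zr a f M n ρ x) := by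
  induction x with
  | zero => rw [smul_zero, map_zero, map_zero]
  | tmul w v =>
    change zr a f M n ρ ((u * w) ⊗ₜ[ℂ] v) = _
    rw [zr_tmul, zr_tmul, map_mul, map_mul, ro_mul]
  | add x y hx hy => rw [smul_add, map_add, map_add, hx, hy, map_add]

/-- The functions of `A` act through `B`. -/
theorem zq_rm (n : ℤ) (ρ : N →ₗ[ℂ] W ⊗[ℂ] M.M.V) (b : A) (x : W ⊗[ℂ] (Om ℂ A ⊗[ℂ] N)) :
    zq a f M n ρ (rm A W (Om ℂ A ⊗[ℂ] N) b x) = rm B W M.M.V (f b) (zq a f M n ρ x) := by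
  refine src_ext (p := zq a f M n ρ ∘ₗ rm A W (Om ℂ A ⊗[ℂ] N) b)
    (q := rm B W M.M.V (f b) ∘ₗ zq a f M n ρ) (fun w u v => ?_) x
  change zq a f M n ρ (w ⊗ₜ[ℂ] ((b • u) ⊗ₜ[ℂ] v)) =
    rm B W M.M.V (f b) (zq a f M n ρ (w ⊗ₜ[ℂ] (u ⊗ₜ[ℂ] v)))
  rw [zq_smul, ro_alg]
  generalize zq a f M n ρ (w ⊗ₜ[ℂ] (u ⊗ₜ[ℂ] v)) = z
  induction z with
  | zero => simp only [map_zero]
  | tmul v x => rw [H374.Gau.ro_tmul, rm_tmul, algebraMap_smul]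
  | add x y hx hy => rw [map_add, map_add, hx, hy]

theorem zq_two (n : ℤ) (ρ : N →ₗ[ℂ] W ⊗[ℂ] M.M.V) (x : W ⊗[ℂ] (Om ℂ A ⊗[ℂ] N)) :
    zq a f M (n + 1 + 1) ρ x = zq a f M n ρ x := by
  have he : ∀ w, a.sgz (n + 1 + 1) w = a.sgz n w := fun w => by
    rw [add_assoc, ← a.sgz_sgz, a.sgz_even (n := 1 + 1) (by decide)]
  have ho : ∀ w : Om ℂ B, Om.sgz (n + 1 + 1) w = Om.sgz n w := fun w => by
    rw [add_assoc, ← Om.sgz_sgz, Om.sgz_even (n := 1 + 1) (by decide)]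
  refine src_ext (p := zq a f M (n + 1 + 1) ρ) (q := zq a f M n ρ) (fun w u v => ?_) x
  rw [zq_tmul, zq_tmul, he, ho]

theorem zq_sum (n : ℤ) {ι : Type} (s : Finset ι) (c : ι → ℂ) (r : ι → N →ₗ[ℂ] W ⊗[ℂ] M.M.V)
    (ρ : N →ₗ[ℂ] W ⊗[ℂ] M.M.V) (h : ∀ v, ρ v = ∑ i ∈ s, c i • r i v)
    (x : W ⊗[ℂ] (Om ℂ A ⊗[ℂ] N)) :
    zq a f M n ρ x = ∑ i ∈ s, c i • zq a f M n (r i) x := by
  have h1 := src_ext (p := zq a f M n ρ) (q := ∑ i ∈ s, c i • zq a f M n (r i))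
    (fun w u v => by
      rw [LinearMap.sum_apply, zq_tmul, h, map_sum, map_sum]
      refine Finset.sum_congr rfl fun i _ => ?_
      rw [map_smul, map_smul, LinearMap.smul_apply, zq_tmul]) x
  rw [h1, LinearMap.sum_apply]
  rfl

end Alg

section Lvl

variable {N : ℕ} {Γ : Gps N} [hs : Algebra.Smooth ℂ (Of Γ)] {I : Type} [Fintype I]
  [DecidableEq I] {n : ℕ} (P : XP Γ I n) (F : OmF (BGT Γ))

/-- The map of the level `k` on the module. -/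
def rhof (A : Gen.BGObj Γ) (k : ℕ) :
    (P.G.Xi F).V →ₗ[ℂ] Wk I 0 ⊗[ℂ] (fib F ((undS A).P k)).M.V := P.rho F A k

/-- The faces of the map of the previous level. -/
def rdlf (A : Gen.BGObj Γ) (k : ℕ) :
    (P.G.Xi F).V →ₗ[ℂ] Wk I 0 ⊗[ℂ] (fib F ((undS A).P k)).M.V := P.rdl F A k

/-- The product map of the level `k`. -/
def zlev (A : Gen.BGObj Γ) (k : ℕ) :
    Wk I 0 ⊗[ℂ] (Om ℂ A.A.R ⊗[ℂ] (P.G.Xi F).V) →ₗ[ℂ] Wk I 0 ⊗[ℂ] (fib F ((undS A).P k)).M.V :=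
  zq (dga I 0) (Gen.BGHom.f (uA A k)) (fib F ((undS A).P k)) k (rhof P F A k)

theorem zlev_tmul (A : Gen.BGObj Γ) (k : ℕ) (w : Wk I 0) (u : Om ℂ A.A.R) (v : (P.G.Xi F).V) :
    zlev P F A k (w ⊗ₜ[ℂ] (u ⊗ₜ[ℂ] v)) =
      lw (fib F ((undS A).P k)) ((dga I 0).sgz k w) (ro (dga I 0) (fib F ((undS A).P k))
        (Om.sgz k (Om.pb (Gen.BGHom.f (uA A k)) u)) (rhof P F A k v)) := rfl

theorem zlev_rm (A : Gen.BGObj Γ) (k : ℕ) (b : A.A.R)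
    (x : Wk I 0 ⊗[ℂ] (Om ℂ A.A.R ⊗[ℂ] (P.G.Xi F).V)) :
    zlev P F A k (rm A.A.R (Wk I 0) (Om ℂ A.A.R ⊗[ℂ] (P.G.Xi F).V) b x) =
      rm ((undS A).P k).A.R (Wk I 0) (fib F ((undS A).P k)).M.V (Gen.BGHom.f (uA A k) b)
        (zlev P F A k x) := zq_rm _ _ _ _ _ _ _

theorem zlev_gr (A : Gen.BGObj Γ) (k : ℕ) (m : ℤ)
    {x : Wk I 0 ⊗[ℂ] (Om ℂ A.A.R ⊗[ℂ] (P.G.Xi F).V)}
    (hx : x ∈ tgr (WK I 0).toGD (tens (OmS A.A.R) (P.G.Xi F).toGD) m) :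
    zlev P F A k x ∈ tgr (WK I 0).toGD (fib F ((undS A).P k)).M (m - k) := by
  refine map_tgr (E := (WK I 0).toGD) (F := tens (OmS A.A.R) (P.G.Xi F).toGD)
    (E' := (WK I 0).toGD) (F' := (fib F ((undS A).P k)).M) (T := zlev P F A k) ?_ hx
  intro i j w y hij hw hy
  have h : tgr (OmS A.A.R).toGD (P.G.Xi F).toGD j ≤
      (tgr (WK I 0).toGD (fib F ((undS A).P k)).M (m - k)).comap
        (zlev P F A k ∘ₗ TensorProduct.mk ℂ (Wk I 0) (Om ℂ A.A.R ⊗[ℂ] (P.G.Xi F).V) w) := by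
    refine tgr_le fun p q u v hpq hu hv => ?_
    change zlev P F A k (w ⊗ₜ[ℂ] (u ⊗ₜ[ℂ] v)) ∈
      tgr (WK I 0).toGD (fib F ((undS A).P k)).M (m - k)
    rcases hu with rfl | ⟨p, rfl, hu⟩
    · rw [zero_tmul, tmul_zero, map_zero]
      exact zero_mem _
    · rw [zlev_tmul]
      have h1 := P.rho_gr F A k hv
      have h2 := ro_mem (dga I 0) (fib F ((undS A).P k))
        (Om.sgz_mem (k : ℤ) (Om.pb_mem (Gen.BGHom.f (uA A k)) hu)) h1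
      have h3 := lw_mem (dga I 0) (fib F ((undS A).P k)) ((dga I 0).sgz_mem k hw) h2
      have e : i + (p + (q - k)) = m - k := by rw [← hij, ← hpq]; ring
      rw [e] at h3
      exact h3
  exact h hy

/-- The chain rule of the level `k`. -/
theorem zlev_D (A : Gen.BGObj Γ) (k : ℕ) (x : Wk I 0 ⊗[ℂ] (Om ℂ A.A.R ⊗[ℂ] (P.G.Xi F).V)) :
    zlev P F A k (LM.twd (H867.yop I 0 n) (LM.tensL (OmS A.A.R) (P.G.Xi F)) x) =
      (((k : ℤ)).negOnePow : ℤ) • td (WK I 0) (fib F ((undS A).P k)).M (zlev P F A k x) +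
        zq (dga I 0) (Gen.BGHom.f (uA A k)) (fib F ((undS A).P k)) ((k : ℤ) + 1)
          (rdlf P F A k) x := by
  refine src_ext
    (p := zlev P F A k ∘ₗ LM.twd (H867.yop I 0 n) (LM.tensL (OmS A.A.R) (P.G.Xi F)))
    (q := (((k : ℤ)).negOnePow : ℤ) • (td (WK I 0) (fib F ((undS A).P k)).M ∘ₗ zlev P F A k) +
        zq (dga I 0) (Gen.BGHom.f (uA A k)) (fib F ((undS A).P k)) ((k : ℤ) + 1)
          (rdlf P F A k)) (fun w u v => ?_) x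
  have h1 := zq_D (dga I 0) (Gen.BGHom.f (uA A k)) (fib F ((undS A).P k)) (k : ℤ)
    (P.rho F A k) (fun i : Fin n => y0 I i) (fun i => y0_comm i) (fun i => sgA_y0 i)
    (P.G.Xi F).d (P.G.Xi F).e (P.rdl F A k) (P.rho_D F A k) w u v
  refine Eq.trans ?_ h1
  have h2 : (LM.twd (H867.yop I 0 n) (LM.tensL (OmS A.A.R) (P.G.Xi F)) (w ⊗ₜ[ℂ] (u ⊗ₜ[ℂ] v)) :
      Wk I 0 ⊗[ℂ] (Om ℂ A.A.R ⊗[ℂ] (P.G.Xi F).V)) =
      Wk.d I 0 w ⊗ₜ[ℂ] (u ⊗ₜ[ℂ] v) +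
      Wk.sgA I 0 w ⊗ₜ[ℂ] (Om.d u ⊗ₜ[ℂ] v + Om.sg u ⊗ₜ[ℂ] (P.G.Xi F).d v) -
      ∑ i : Fin n, (y0 I i * Wk.sgA I 0 w) ⊗ₜ[ℂ] (Om.sg u ⊗ₜ[ℂ] (P.G.Xi F).e i v) :=
    twd_tmul' (H867.yop I 0 n) (P.G.Xi F) w u v
  refine (congrArg (zlev P F A k) h2).trans ?_
  rw [map_sub, map_add, map_sum]
  rfl

end Lvl

section Glw

variable {I : Type} [Fintype I] [DecidableEq I] {m : ℕ} {y : Fin m → MvPolynomial (I × I) ℂ}
  {W : Type} [Ring W] [Algebra ℂ W] {Q : H374.Gau.WD I m y W}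
  {A B : Type} [CommRing A] [Algebra ℂ A] [CommRing B] [Algebra ℂ B] {M : OmM A} {M' : OmM B}

/-- The transition maps without gauge component are linear over `W`. -/
theorem G_lw_one (t : M.M.V →ₗ[ℂ] M'.M.V) {U U' : Matrix I I B} (h1 : U = 1) (h2 : U' = 1)
    (w : W) (z : W ⊗[ℂ] M.M.V) :
    H374.Gau.G Q M M' t U U' (lw M w z) = lw M' w (H374.Gau.G Q M M' t U U' z) := by
  subst h1 h2
  have h3 : H374.Gau.G Q M M' t 1 1 (lw M w z) =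
      (H374.Gau.rM Q M').aU 1 1 w (H374.Gau.G Q M M' t 1 1 z) := H374.Gau.G_lw w z
  rw [h3, H374.Gau.Rp.aU_one]
  rfl

end Glw

section Gau

variable {N : ℕ} {Γ : Gps N} {I : Type} [Fintype I] [DecidableEq I]

/-- The gauge functor is given by the gauge transformations of the Weil algebra. -/
def IsGau (G₀ : GauX Γ (WK I 0) 0) (R : Rpn Γ I) : Prop :=
  ∀ (F : OmF (BGT Γ)) {X Y : Gen.BGObj Γ} (φ : X ⟶ Y), (G₀.map F φ).f =
    H374.Gau.G (H374.Gau.wq I 0) (fib F X) (fib F Y) (fibt F φ).f (R.r (Gen.BGHom.h φ))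
      (R.r (Gen.BGHom.h φ)⁻¹)

theorem cpt_wk (n : ℕ) : Cpt (dga I n) (H374.Gau.wq I n) := ⟨fun _ => rfl, fun _ => rfl⟩

variable {G₀ : GauX Γ (WK I 0) 0} {R : Rpn Γ I} (hR : IsGau G₀ R) (F : OmF (BGT Γ))

include hR

theorem map_ro {X Y : Gen.BGObj Γ} (φ : X ⟶ Y) (u : Om ℂ X.A.R)
    (z : Wk I 0 ⊗[ℂ] (fib F X).M.V) :
    (G₀.map F φ).f (ro (dga I 0) (fib F X) u z) =
      ro (dga I 0) (fib F Y) (Om.pb (Gen.BGHom.f φ) u) ((G₀.map F φ).f z) := by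
  rw [hR F φ]
  exact G_ro_all (cpt_wk 0) (fibt_smul F φ) u z

theorem map_lw {X Y : Gen.BGObj Γ} (φ : X ⟶ Y) (h : Gen.BGHom.h φ = 1) (w : Wk I 0)
    (z : Wk I 0 ⊗[ℂ] (fib F X).M.V) :
    (G₀.map F φ).f (lw (fib F X) w z) = lw (fib F Y) w ((G₀.map F φ).f z) := by
  rw [hR F φ]
  exact G_lw_one (Q := H374.Gau.wq I 0) (fibt F φ).f (by rw [h, map_one])
    (by rw [h, inv_one, map_one]) w z

/-- The product maps and the maps without gauge component. -/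
theorem map_zq {A B C : Gen.BGObj Γ} (ι : A ⟶ B) (ψ : B ⟶ C) (κ : A ⟶ C) (hk : ι ≫ ψ = κ)
    (h : Gen.BGHom.h ψ = 1) (k : ℤ) {V : Type} [AddCommGroup V] [Module ℂ V]
    (ρ : V →ₗ[ℂ] Wk I 0 ⊗[ℂ] (fib F B).M.V) (x : Wk I 0 ⊗[ℂ] (Om ℂ A.A.R ⊗[ℂ] V)) :
    (G₀.map F ψ).f (zq (dga I 0) (Gen.BGHom.f ι) (fib F B) k ρ x) =
      zq (dga I 0) (Gen.BGHom.f κ) (fib F C) k ((G₀.map F ψ).f ∘ₗ ρ) x := by
  subst hk
  refine src_ext (p := (G₀.map F ψ).f ∘ₗ zq (dga I 0) (Gen.BGHom.f ι) (fib F B) k ρ)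
    (q := zq (dga I 0) (Gen.BGHom.f (ι ≫ ψ)) (fib F C) k ((G₀.map F ψ).f ∘ₗ ρ))
    (fun w u v => ?_) x
  change (G₀.map F ψ).f (lw (fib F B) ((dga I 0).sgz k w) (ro (dga I 0) (fib F B)
    (Om.sgz k (Om.pb (Gen.BGHom.f ι) u)) (ρ v))) =
    lw (fib F C) ((dga I 0).sgz k w) (ro (dga I 0) (fib F C)
      (Om.sgz k (Om.pb (Gen.BGHom.f (ι ≫ ψ)) u)) ((G₀.map F ψ).f (ρ v)))
  have e1 : Om.pb (Gen.BGHom.f ψ) (Om.sgz k (Om.pb (Gen.BGHom.f ι) u)) =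
      Om.sgz k (Om.pb (Gen.BGHom.f (ι ≫ ψ)) u) := by
    rw [Om.pb_sgz, Om.pb_pb]
    rfl
  exact (map_lw hR F ψ h _ _).trans (congrArg (lw (fib F C) ((dga I 0).sgz k w))
    ((map_ro hR F ψ _ _).trans (congrArg (fun o => ro (dga I 0) (fib F C) o
      ((G₀.map F ψ).f (ρ v))) e1)))

end Gau

section Fac

variable {N : ℕ} {Γ : Gps N} [hs : Algebra.Smooth ℂ (Of Γ)] {I : Type} [Fintype I]
  [DecidableEq I] {n : ℕ} (P : XP Γ I n) (F : OmF (BGT Γ))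

theorem rdl_sum (A : Gen.BGObj Γ) (k : ℕ) (v : (P.G.Xi F).V) :
    rdlf P F A (k + 1) v = ∑ i ∈ Finset.range (k + 2),
      (-1 : ℂ) ^ i • ((P.G₀.map F (fcR A k i)).f ∘ₗ rhof P F A k) v := by
  refine (CS.dl_apply ((P.G₀.wk F).cs (undS A).co) k (P.rho F A k v)).trans ?_
  refine Finset.sum_congr rfl fun i hi => ?_
  have h : fcR A k i = (undS A).fc k i := fcR_of_le A (by rw [Finset.mem_range] at hi; omega)
  rw [h]
  rfl

variable {R : Rpn Γ I} (hR : IsGau P.G₀ R)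

include hR

/-- The faces of the levels. -/
theorem zlev_rdl (A : Gen.BGObj Γ) (k : ℕ)
    (x : Wk I 0 ⊗[ℂ] (Om ℂ A.A.R ⊗[ℂ] (P.G.Xi F).V)) :
    zq (dga I 0) (Gen.BGHom.f (uA A (k + 1))) (fib F ((undS A).P (k + 1)))
      (((k + 1 : ℕ) : ℤ) + 1) (rdlf P F A (k + 1)) x =
    ∑ i ∈ Finset.range (k + 2), (-1 : ℂ) ^ i •
      (P.G₀.map F (fcR A k i)).f (zlev P F A k x) := by
  have e : (((k + 1 : ℕ) : ℤ) + 1) = (k : ℤ) + 1 + 1 := by push_cast; rfl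
  rw [e, zq_two]
  refine (zq_sum (dga I 0) (Gen.BGHom.f (uA A (k + 1))) (fib F ((undS A).P (k + 1))) (k : ℤ)
    (Finset.range (k + 2)) (fun i => (-1 : ℂ) ^ i)
    (fun i => (P.G₀.map F (fcR A k i)).f ∘ₗ rhof P F A k) (rdlf P F A (k + 1))
    (rdl_sum P F A k) x).trans ?_
  refine Finset.sum_congr rfl fun i _ => ?_
  exact congrArg ((-1 : ℂ) ^ i • ·) (map_zq hR F (uA A k) (fcR A k i) (uA A (k + 1))
    (fcR_w A k i) (h_fcR A k i) (k : ℤ) (rhof P F A k) x).symm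

/-- **Naturality of the levels.** -/
theorem zlev_nat {A B : Gen.BGObj Γ} (φ : A ⟶ B) (k : ℕ)
    (x : Wk I 0 ⊗[ℂ] (Om ℂ A.A.R ⊗[ℂ] (P.G.Xi F).V)) :
    zlev P F B k ((P.G₀.map (H459.cst (H459.strB Γ) (P.G.Xi F).toGD) φ).f x) =
      (P.G₀.map F ((undM φ).P k)).f (zlev P F A k x) := by
  have h0 : Gen.BGHom.h ((undM φ).P k) = Gen.gm (Gen.BGHom.f (uA B k)) (Gen.BGHom.h φ) :=
    h_undM φ k
  have hU : R.r (Gen.BGHom.h ((undM φ).P k)) =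
      (R.r (Gen.BGHom.h φ)).map (Gen.BGHom.f (uA B k)) := by
    rw [h0, R.nat]
  have hU' : R.r (Gen.BGHom.h ((undM φ).P k))⁻¹ =
      (R.r (Gen.BGHom.h φ)⁻¹).map (Gen.BGHom.f (uA B k)) := by
    rw [h0, ← Gen.gm_inv, R.nat]
  let S : OmF (BGT Γ) := H459.cst (H459.strB Γ) (P.G.Xi F).toGD
  let r : (fib S A).M.V →ₗ[ℂ] Wk I 0 ⊗[ℂ] (fib F ((undS A).P k)).M.V :=
    zr (dga I 0) (Gen.BGHom.f (uA A k)) (fib F ((undS A).P k)) k (rhof P F A k)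
  let r' : (fib S B).M.V →ₗ[ℂ] Wk I 0 ⊗[ℂ] (fib F ((undS B).P k)).M.V :=
    zr (dga I 0) (Gen.BGHom.f (uA B k)) (fib F ((undS B).P k)) k (rhof P F B k)
  have h1 := zl_G (a := dga I 0) (Q := H374.Gau.wq I 0) (cpt_wk 0) (fib S A) (fib S B)
    (fib F ((undS A).P k)) (fib F ((undS B).P k)) (Gen.BGHom.f (uA B k)) k r r'
    (fun u x => zr_om (dga I 0) (Gen.BGHom.f (uA B k)) (fib F ((undS B).P k)) k
      (rhof P F B k) u x) (fibt S φ).f (fibt F ((undM φ).P k)).f (R.r (Gen.BGHom.h φ))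
      (R.r (Gen.BGHom.h φ)⁻¹) (fun x => ?_) x
  · have e1 := LinearMap.congr_fun (hR S φ) x
    have e2 := LinearMap.congr_fun (hR F ((undM φ).P k)) (zlev P F A k x)
    rw [hU, hU'] at e2
    refine (congrArg (zlev P F B k) e1).trans (Eq.trans ?_ e2.symm)
    exact h1
  · have e2 : ∀ z : Wk I 0 ⊗[ℂ] (fib F ((undS A).P k)).M.V,
        H374.Gau.G (H374.Gau.wq I 0) (fib F ((undS A).P k)) (fib F ((undS B).P k))
          (fibt F ((undM φ).P k)).f ((R.r (Gen.BGHom.h φ)).map (Gen.BGHom.f (uA B k)))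
          ((R.r (Gen.BGHom.h φ)⁻¹).map (Gen.BGHom.f (uA B k))) z =
        (P.G₀.map F ((undM φ).P k)).f z := fun z => by
      rw [← hU, ← hU']
      exact (LinearMap.congr_fun (hR F ((undM φ).P k)) z).symm
    refine Eq.trans ?_ (e2 (r x)).symm
    have e6 : (r' ∘ₗ (fibt S φ).f : Om ℂ A.A.R ⊗[ℂ] (P.G.Xi F).V →ₗ[ℂ]
        Wk I 0 ⊗[ℂ] (fib F ((undS B).P k)).M.V) = (P.G₀.map F ((undM φ).P k)).f ∘ₗ r := by
      refine TensorProduct.ext' fun u v => ?_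
      have e3 : Om.pb (Gen.BGHom.f ((undM φ).P k))
          (Om.sgz k (Om.pb (Gen.BGHom.f (uA A k)) u)) =
          Om.sgz k (Om.pb (Gen.BGHom.f (uA B k)) (Om.pb (Gen.BGHom.f φ) u)) := by
        have e4 : (Gen.BGHom.f ((undM φ).P k)).comp (Gen.BGHom.f (uA A k)) =
            (Gen.BGHom.f (uA B k)).comp (Gen.BGHom.f φ) :=
          congrArg Gen.BGHom.f (uA_undM φ k)
        rw [Om.pb_sgz, Om.pb_pb, Om.pb_pb]
        exact congrArg (fun g => Om.sgz k (Om.pb g u)) e4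
      have e5 := map_ro hR F ((undM φ).P k) (Om.sgz k (Om.pb (Gen.BGHom.f (uA A k)) u))
        (rhof P F A k v)
      rw [e3] at e5
      refine Eq.trans ?_ e5.symm
      exact congrArg (ro (dga I 0) (fib F ((undS B).P k))
        (Om.sgz k (Om.pb (Gen.BGHom.f (uA B k)) (Om.pb (Gen.BGHom.f φ) u))))
        (P.rho_nat F φ k v).symm
    exact LinearMap.congr_fun e6 x

end Fac

end

end Vale.Agent.P286.H103
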