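import Vale.Agent.P286.H103.ZaX
import Vale.Agent.P286.H56.Xp
import Vale.Agent.P286.H652.MidI
import Vale.Agent.P286.H459.YP

/-!
# Naturality of the morphism to the middle family
-/

namespace Vale.Agent.P286.H103

open CategoryTheory TensorProduct Matrix Vale.Agent.P286.Gen Vale.Agent.P286.H295
  Vale.Agent.P286.H389 Vale.Agent.P286.H761 Vale.Agent.P286.H847 Vale.Agent.P286.H847.SGD
  Vale.Agent.P286.H652 Vale.Agent.P286.H697 Vale.Agent.P286.H710
  Vale.Agent.P286.H987 Vale.Agent.P286.H56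

open Vale.Agent.P286.H64 (LM)

noncomputable section

variable {N : ℕ} {Γ : Gps N} [hs : Algebra.Smooth ℂ (Of Γ)] {I : Type} [Fintype I]
  [DecidableEq I] {n : ℕ} (P : XP Γ I n) {F F' : OmF (BGT Γ)} {p : ℤ} (c : OmF.Coch F F' p)

/-- The levels and cochains. -/
theorem zlev_co (A : Gen.BGObj Γ) (k : ℕ) (z : TV (WK I 0) (P.G.Xi F) A.A.R) :
    zlev P F' A k (thz (WK I 0) A.A.R p (P.G.xi c).f z) =
      GCS.sgn p ^ k • tco (WK I 0) p (H652.cf c ((undS A).P k)) (zlev P F A k z) :=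
  P.zq_rho c A k (Gen.BGHom.f (uA A k)) z

variable {R : Rpn Γ I} (hR : IsGau P.G₀ R) (hG : GSl P.G₀) (H : H459.GauT P.G₀ (H867.yop I 0 n))

/-- **Naturality for cochains of any degree.** -/
theorem zA_co (A : Gen.BGObj Γ) (v : (JG (thA (H867.yop I 0 n) (P.G.Xi F) A.A.R)).V) :
    ((zA P F' hR hG H).f A).f (jz (H867.yop I 0 n) A.A.R p (P.G.xi c).f v) =
      (midC (wC hG c)).f A (((zA P F hR hG H).f A).f v) := by
  funext k
  have e1 := J.map_comp (A := A.A.R) ((zdata P F' hR hG H).q A k)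
    (DO.lin ((zdata P F' hR hG H).lin A k)) (thl (H867.yop I 0 n) A.A.R p (P.G.xi c).f)
    (thl_do (H867.yop I 0 n) A.A.R p (P.G.xi c).f)
  have hl : DO A.A.R (rC (wC hG c) (uA A k)) := DO.lin (rC_lin (wC hG c) (uA A k))
  have e2 := J.map_comp (A := A.A.R) (rC (wC hG c) (uA A k)) hl ((zdata P F hR hG H).q A k)
    (DO.lin ((zdata P F hR hG H).lin A k))
  have e3 := J.map_smul (A := A.A.R) (GCS.sgn p ^ k) (rC (wC hG c) (uA A k) ∘ₗ
    (zdata P F hR hG H).q A k) (hl.comp (DO.lin ((zdata P F hR hG H).lin A k)))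
  have e4 : (zdata P F' hR hG H).q A k ∘ₗ thl (H867.yop I 0 n) A.A.R p (P.G.xi c).f =
      GCS.sgn p ^ k • (rC (wC hG c) (uA A k) ∘ₗ (zdata P F hR hG H).q A k) :=
    LinearMap.ext fun z => zlev_co P c A k z
  have e5 := J.map_congr (A := A.A.R) e4 ((DO.lin ((zdata P F' hR hG H).lin A k)).comp
    (thl_do (H867.yop I 0 n) A.A.R p (P.G.xi c).f))
    ((hl.comp (DO.lin ((zdata P F hR hG H).lin A k))).smul (GCS.sgn p ^ k))
  have e6 := e1.symm.trans (e5.trans (e3.trans (congrArg (GCS.sgn p ^ k • ·) e2)))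
  exact LinearMap.congr_fun e6 v

end

end Vale.Agent.P286.H103
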